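import Vale.Agent.P257.G.Prof
import Vale.Agent.P257.W.UP

/-!
# P257, block G: the counting lemma with windows which depend on the weight

* `good_kos`, `good_pair` : the layers of a pair of cells need the window `f` in every arity;
* `Ok`, `GP`, `UP` and the four kinds of cells; `trE`.
-/

open CategoryTheory MonoidalCategory Limits Pointwise

namespace Vale.Agent.P257.G

open Vale.Agent.P251.H Vale.Agent.P251.H.StabInput Vale.Agent.P257.A Vale.Agent.P257.C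
open Vale.Agent.P257.D Vale.Agent.P257.M Vale.Agent.P257.V

universe v u v' u'

section real

variable {M : Type u} [Category.{v} M] [MonoidalCategory M] [SymmetricCategory M]
  [MonoidalClosed M] [HasZeroMorphisms M] [HasColimitsOfSize.{0, 0} M] [StabInput M]
  {C : Type u'} [Category.{v'} C] [Preadditive C] [MonoidalCategory C] [SymmetricCategory C]
  [MonoidalPreadditive C] {st : M ⥤ C} [st.Monoidal] {Λ : Type} [AddCommGroup Λ]
  {c : Cells C (ℤ × (Λ × ℤ))} (H : Real st c) {τ : TCone c}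
include H

theorem good_kos (hT : Tr τ) {ν A Y A' Y' : M} {b : A ⟶ ν} {χ : A ⊗ CI M ⟶ Y} {a : ν ⟶ Y}
    (hY : IsPushout (coneBase A) b χ a) {b' : A' ⟶ ν} {χ' : A' ⊗ CI M ⟶ Y'} {a' : ν ⟶ Y'}
    (hY' : IsPushout (coneBase A') b' χ' a') {f f' w : ℕ} (hb : Dl τ f (st.map b))
    (hb' : Dl τ f' (st.map b')) (hw : f' ≤ w) {P r : ℤ} (hP : 0 ≤ P) {g : Λ} (k : ℕ)
    (h1 : ∀ j ≤ k + 1, c.TConn (st.obj (DP j ν)) (At (j • g) 0))
    (h4 : ∀ j, 1 ≤ j → j ≤ k → c.TConn (st.obj (DP (k - j) ν) ⊗ st.obj (DP (j + 1) (A ⊗ S M)))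
      (High P ((k + 1) • g)))
    (h4' : ∀ j, 1 ≤ j → j ≤ k → c.TConn (st.obj (DP (k - j) ν) ⊗ st.obj (DP (j + 1) (A' ⊗ S M)))
      (High (P + w) ((k + 1) • g)))
    (h : Good τ (P + w) (st.obj (DP (k + 1) Y')) ((k + 1) • g) r w) :
    Good τ P (st.obj (DP (k + 1) Y)) ((k + 1) • g) r f := by
  obtain ⟨m, hm⟩ := exists_kos (fun j => isOrb_DP j ν) k
  have hK := H.cone (isPushout_cone m)
  have hQ : c.TConn (st.obj (DP k ν ⊗ ν)) (At ((k + 1) • g) 0) := by
    have := ((h1 k (by omega)).tensor ((h1 1 (by omega)).of_iso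
      (st.mapIso (DP1 ν).symm))).mono at_add
    rw [add_zero, ← add_smul] at this
    exact this.of_iso (Functor.Monoidal.μIso st _ _)
  have dl : ∀ {A : M} {b : A ⟶ ν} {f : ℕ}, Dl τ f (st.map b) → Dl τ f (st.map (DP k ν ◁ b)) :=
    fun hb => by
      rw [Functor.Monoidal.map_whiskerLeft]
      exact (hb.whiskerLeft _).of_iso _ (Cells.TEq.of_isIso _) _
  obtain ⟨G, i, hi, ⟨e⟩, κ, i', hG⟩ := hm hY' (Nat.card_fin _) (isOrb_DP _ _)
    (fun j => isOrb_DP j _)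
  have k1 : ∀ j, j ≤ k → Good τ (P + w) (st.obj (G (k - j + 1))) ((k + 1) • g) r w := by
    intro j hj
    induction j with
    | zero => exact h.of_iso (st.mapIso e.symm)
    | succ j ih =>
      obtain ⟨l1, q, l2⟩ := hi (k - j) (Nat.sub_le _ _)
      rw [show k - (j + 1) + 1 = k - j by omega]
      exact Good.src (by omega) (H.cok l1 l2) (ih (by omega))
        ((h4' (k - j) (by omega) (Nat.sub_le _ _)).of_iso (Functor.Monoidal.μIso st _ _))
  have k2 := k1 k le_rfl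
  rw [Nat.sub_self, Nat.zero_add] at k2
  have k3 := H.cone hG
  rw [st.map_comp] at k3
  have k5 := Good.shrink hT hP (tConn_at hK hQ (h1 _ le_rfl))
    (Good.kos_inv (dl hb') hK hQ (h1 _ le_rfl) k3 k2 hw)
  obtain ⟨G, i, hi, ⟨e⟩, κ, i', hG⟩ := hm hY (Nat.card_fin _) (isOrb_DP _ _)
    (fun j => isOrb_DP j _)
  have k4 := H.cone hG
  rw [st.map_comp] at k4
  refine (Good.chain (F := fun j => st.obj (G j)) (i := fun j => st.map (i j)) (m := 1) (k + 1)
    (by omega) (fun j _ l => ?_) (Good.kos (dl hb) hK k5 hQ (h1 _ le_rfl) k4)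
    (fun j l l' => Good.of_high hP (h4 j l (by omega)))).of_iso (st.mapIso e)
  obtain ⟨l1, q, l2⟩ := hi j (by omega)
  exact (H.cok l1 l2).of_iso (Iso.refl _) (Iso.refl _) (by simp)
    (Functor.Monoidal.μIso st _ _).symm

end real

variable {C : Type u'} [Category.{v'} C] [Preadditive C] [MonoidalCategory C] [SymmetricCategory C]
  [MonoidalPreadditive C] {st : MM ⥤ C} [st.Monoidal] {c : Cells C (ℤ × Gam)} {τ : TCone c} {p : ℕ}

/-- the condition on the cells of filtration degree zero -/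
def Ok (p : ℕ) (a : Lam) (k : ℤ) : Prop :=
  a ∈ Cn ∧ 1 ≤ ell a ∧ (bd p a ≤ p * (k + 1) ∨ sz a ≤ 0 ∧ DD p a ≤ k + 2)

section world

variable (H : World st c τ p) {X Y : MM} {a : Lam} {k N : ℤ} {B B' : CommMon MM}
  {i : B ⟶ B'} {x : X ⟶ B.X} {χ : X ⊗ CI MM ⟶ B'.X} {P Lm : ℕ} {hp : 0 < p}
  {ω : Lam → ℤ → Prop}
include H

omit [SymmetricCategory C] [MonoidalPreadditive C] in
theorem cell_t (e : Nonempty (st.obj X ≅ c.obj (k, (a, 0)))) (f : ℤ) :
    Nonempty (st.obj (X ⊗ rp (0, f)) ≅ c.obj (k, (a, f))) := by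
  obtain ⟨e⟩ := e
  obtain ⟨s⟩ := H.rpc (0, f)
  exact ⟨(Functor.Monoidal.μIso st _ _).symm ≪≫ (e ⊗ᵢ s) ≪≫ c.add _ _ ≪≫ eqToIso (by simp)⟩

omit [SymmetricCategory C] in
theorem conn_ev (hv : HV X) (e : Nonempty (st.obj X ≅ c.obj (k, (a, 0)))) {l : ℕ}
    (hl : l < p ^ 2) : c.Conn (st.obj (DP l (X ⊗ S MM))) (l • a, 0) (l * (k + 1)) := by
  obtain ⟨e₁⟩ := H.susp e
  simpa using H.d1 (hv.tensor _) hl ((Cells.Conn.cell _ _).of_iso e₁.symm)

omit [SymmetricCategory C] in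
theorem high {f : ℕ} {P : ℤ} (hP : P < p * f) (hv : HV X)
    (e : Nonempty (st.obj X ≅ c.obj (k, (a, 0)))) (hk : Odd k) {j l : ℕ} (hj : j + 1 < p ^ 2)
    (l1 : 1 ≤ l) (l2 : l ≤ j) : c.TConn (st.obj (DP (j - l) (X ⊗ S MM)) ⊗
      st.obj (DP (l + 1) (((X ⊗ rp (0, (f : ℤ))) ⊗ S MM) ⊗ S MM))) (High P ((j + 1) • a)) := by
  obtain ⟨e₃⟩ := H.susp (H.susp (cell_t H e f))
  by_cases h : l + 1 < p
  · exact (tConn_empty_left (H.d2 ((hv.tensor _).tensor _) e₃ hk.add_one.add_one (by omega) h)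
      _).mono (Set.empty_subset _)
  · have h3 := (conn_ev H hv e (l := j - l) (by omega)).tensor (H.d1 (k := l + 1)
      (((hv.tensor _).tensor _).tensor _) (by omega) ((Cells.Conn.cell _ _).of_iso e₃.symm))
    refine Cells.TConn.mono h3 (up_subset_at.trans ?_)
    simp only [Prod.smul_mk]
    rw [← add_smul, show j - l + (l + 1) = j + 1 by omega, zero_add, nsmul_eq_mul]
    exact at_subset_high (hP.trans_le (mul_le_mul_of_nonneg_right (by omega)
      (Int.natCast_nonneg f)))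

theorem good_low {f : ℕ} {P : ℤ} (h0 : 0 ≤ P) (hP : P < p * f) (hv : HV X)
    (e : Nonempty (st.obj X ≅ c.obj (k, (a, 0)))) (hk : Odd k) (j : ℕ) (hj : j + 1 ≤ p) (r : ℤ)
    (hr : j + 1 = p → r ≤ p * (k + 1) + 2 * p - 3) :
    Good τ P (st.obj (DP (j + 1) (cone (tX X f) ⊗ S MM))) ((j + 1) • a) r f := by
  obtain ⟨e₂⟩ := H.susp (H.susp e)
  have hk' : Odd (k + 1 + 1) := hk.add_one.add_one
  have hq := H.lt_sq
  refine H.real.good_kos (isPushout_cone_whiskerRight (tX X f) (S MM)) ?_ j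
    (fun l hl => Cells.TConn.mono (conn_ev H hv e (by omega)) up_subset_at)
    (H.d1' ((hv.tensor _).tensor _) (by omega) (by omega) (H.real.tConn_CI _))
    (fun l l1 l2 => ?_) fun l l1 l2 => Good.of_high h0 (high H hP hv e hk (by omega) l1 l2)
  · rw [Functor.Monoidal.map_whiskerRight]
    exact ((H.dl X f).whiskerRight _).of_iso _ (Cells.TEq.of_isIso _) _
  · by_cases h : l + 1 < p
    · exact Cells.Conn.of_empty (tConn_empty_left (H.d2 (hv.tensor _) e₂ hk' (by omega) h) _)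
    · obtain rfl : l = j := by omega
      have h2 := hr (by omega)
      have h3 := (conn_ev H hv e (l := 0) (by omega)).tensor (H.d3 (hv.tensor _) e₂ hk')
      rw [Nat.sub_self, show l + 1 = p by omega]
      exact Cells.Conn.mono (by simpa using h3) (by linarith)

/-- The layers of a pair of cells. -/
theorem good_pair (hT : Tr τ) {f : ℕ} (hP : P < p) (hf : 1 ≤ f) (hv : HV X)
    (e : Nonempty (st.obj X ≅ c.obj (k, (a, 0)))) (hk : Odd k) {j : ℕ} (h1 : 1 ≤ j)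
    (hj : j < (p - 1) * p) {β : ℤ} (hβ : β ≤ p * (k + 1) + 2 * p - 3) :
    ∃ r, Good τ P (st.obj (DP j (cone (tX X f) ⊗ S MM))) (j • a) r f ∧ j * β ≤ p * r := by
  have h2 := H.two
  have hq : (p - 1) * p < p ^ 2 := by
    rw [sq]
    exact Nat.mul_lt_mul_of_pos_right (by omega) (by omega)
  obtain ⟨u, r, hr, rfl⟩ : ∃ u r, r < p ∧ j = u * p + r :=
    ⟨j / p, j % p, Nat.mod_lt _ (by omega), (Nat.div_add_mod' j p).symm⟩
  have hu : u + 1 < p := by
    by_contra k9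
    have := Nat.mul_le_mul_right p (show p - 1 ≤ u by omega)
    omega
  have hP' : (P : ℤ) + ((u + 1) * p : ℕ) < p * p := by
    have := Nat.mul_le_mul_right p (show u + 1 + 1 ≤ p by omega)
    rw [add_mul (u + 1), one_mul] at this
    exact_mod_cast (show P + (u + 1) * p < p * p by omega)
  have k3 := good_of_dom (τ := τ) (P := P + ((u + 1) * p : ℕ)) (w := p) (g := a) (m := u * p + r)
    (L := fun j => st.obj (DP j (cone (tX X p) ⊗ S MM))) (by omega : 0 < p)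
    (ρ := p * (k + 1) + 2 * p - 3) (ρ' := fun r => r * |β|)
    (fun j l l' => H.d4 (hv_cone_tX hv p) l (by omega)) (by
      obtain ⟨j, hj⟩ : ∃ j, p = j + 1 := ⟨p - 1, by omega⟩
      have := good_low H (by positivity) hP' hv e hk j hj.ge _ fun _ => le_rfl
      rwa [← hj] at this) (fun r r1 r2 => by
      obtain ⟨j, rfl⟩ : ∃ j, r = j + 1 := ⟨r - 1, by omega⟩
      exact good_low H (by positivity) hP' hv e hk j r2.le _ fun l => absurd l r2.ne) (by simp) u r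
    hr h1 le_rfl
  refine ⟨u * (p * (k + 1) + 2 * p - 3) + r * |β|, ?_, ?_⟩
  · obtain ⟨j, hj'⟩ : ∃ j, u * p + r = j + 1 := ⟨u * p + r - 1, by omega⟩
    rw [hj'] at k3 ⊢
    have dl : ∀ f : ℕ, Dl τ f (st.map (tX X f ▷ S MM)) := fun f => by
      rw [Functor.Monoidal.map_whiskerRight]
      exact ((H.dl X f).whiskerRight _).of_iso _ (Cells.TEq.of_isIso _) _
    exact good_kos H.real hT (isPushout_cone_whiskerRight (tX X f) (S MM))
      (isPushout_cone_whiskerRight (tX X p) (S MM)) (dl f) (dl p) (by rw [add_mul]; omega)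
      (Int.natCast_nonneg P) j
      (fun l hl => Cells.TConn.mono (conn_ev H hv e (by omega)) up_subset_at)
      (fun l => high H (by
        have : p * 1 ≤ p * f := Nat.mul_le_mul_left p hf
        exact_mod_cast (show P < p * f by omega)) hv e hk (by omega))
      (fun l => high H hP' hv e hk (by omega)) k3
  · have a1 : (u * p : ℤ) * β ≤ u * p * (p * (k + 1) + 2 * p - 3) :=
      mul_le_mul_of_nonneg_left hβ (by positivity)
    have a2 : (r : ℤ) * β ≤ r * |β| := mul_le_mul_of_nonneg_left (le_abs_self β) (by positivity)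
    have a3 : (r : ℤ) * |β| ≤ p * (r * |β|) := le_mul_of_one_le_left (by positivity) (by omega)
    push_cast
    nlinarith

/-- The cells of filtration degree zero. -/
theorem pr_nu (h : Pr τ (par p P Lm hp) (st.obj B.X) ω N) (hω : Mn ω) (hL : Lm < p ^ 2)
    (hB : PosL B.X) (att : IsAttach i x χ) (hX : NF X (a, 0) k) (ok : Ok p a k) :
    Pr τ (par p P Lm hp) (st.obj B'.X) ω (N + 1) := by
  obtain ⟨o0, o1, o2⟩ := ok
  obtain ⟨e⟩ := H.susp (H.nf hX)
  have hv := nf_hv hX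
  have hc : c.Conn (st.obj (X ⊗ S MM)) (a, 0) (k + 1) := (Cells.Conn.cell _ _).of_iso e.symm
  have hE := fun a ha l (T : ℤ) (_ : T ≤ P) =>
    H.van_L att hB (nf_supp hX wL_mono o1) (Lm := Lm) a ha l T
  have hp0 : (0 : ℤ) ≤ p := Int.natCast_nonneg p
  by_cases hd : bd p a ≤ p * (k + 1)
  · exact (h.crude (H.real.filt att.w) o0.1 (hω a o0) hE (fun j _ l =>
      conn_ev H hv (H.nf hX) (l.trans_lt hL)) hd).mono (fun _ _ => id) (by omega)
  · obtain ⟨o2, o3⟩ := o2.resolve_left hd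
    rw [bd_apply] at hd
    have k1 : DD p a + sz a = k + 2 := by
      by_contra k2
      have := mul_le_mul_of_nonneg_left (show DD p a + sz a ≤ k + 1 by omega) hp0
      linarith
    have k2 : Odd (k + 1) := by
      obtain ⟨r, hr⟩ := even_DD_sub_sz p a
      exact ⟨r - 1, by omega⟩
    refine h.odd (H.real.filt att.w) o0.1 (hω a o0) hE
      (fun j l l' => H.d4 hv l (l'.trans_lt hL)) (hc.of_iso (st.mapIso (DP1 _)))
      (fun r l l' => H.d2 hv e k2 l l') (by simpa using H.d3 hv e k2) ?_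
    change bd p a ≤ p * (k + 1 + 1) - 3
    rw [bd_apply, ← mul_add, k1]
    linarith

/-- Odd cells of positive filtration degree. -/
theorem pr_odd {f : ℕ} (h : Pr τ (par p P Lm hp) (st.obj B.X) ω N) (hP : P < p)
    (hB : PosT B.X 0) (att : IsAttach i x χ) (hX : NF X (a, f) k) (hk : Even k) (hf : 1 ≤ f)
    (ha : 0 ≤ ell a) (hd : bd p a ≤ p * (k + 1)) :
    Pr τ (par p P Lm hp) (st.obj B'.X) (sh ω (one a f)) N := by
  obtain ⟨e⟩ := H.susp (H.nf hX)
  exact h.top (H.real.filt att.w) ha (fun a _ l T hT => H.real.van_cone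
    (fun l => H.bij_of_supp att wT_mono hB (nf_posT hX (Int.ofNat_le.2 hf)) (g := (a, T)) hT l)
      l) (((Cells.Conn.cell _ _).of_iso e.symm).of_iso (st.mapIso (DP1 _)))
    (fun r l l' => H.d2 (nf_hv hX) e hk.add_one l (l'.trans_lt hP)) hd

/-- The pair `ν_{m, ∅}`, `τ_m`. -/
theorem pr_pair (hT : Tr τ) {f m : ℕ} {x : cone (tX X f) ⟶ B.X} {χ : cone (tX X f) ⊗ CI MM ⟶ B'.X}
    (h : Pr τ (par p P Lm hp) (st.obj B.X) ω N) (hω : Mn ω) (hP : P < p) (hL : Lm < (p - 1) * p)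
    (hB : PosL B.X) (att : IsAttach i x χ) (hX : NF X (ee m, 0) (dd p m - 2)) (hf : 1 ≤ f) :
    Pr τ (par p P Lm hp) (st.obj B'.X) (sh ω (one (ee m) f)) N := by
  have h1 : (1 : ℤ) ≤ 2 ^ m := one_le_pow₀ one_le_two
  refine h.pair (H.real.filt att.w) (ee_mem m).1 (hω _ (ee_mem m)) (fun a ha' l T _ => H.van_L att hB
    (supp_cone_tX wL_mono (nf_supp hX wL_mono (h1.trans (ell_ee m).ge)) f) a ha' l T)
    fun j l l' => good_pair H hT hP hf (nf_hv hX) (H.nf hX) ⟨p ^ m - 2, by rw [dd]; ring⟩ l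
      (l'.trans_lt hL) ?_
  change bd p (ee m) ≤ _
  rw [bd_apply, DD_ee, sz_ee, ell_ee]
  linarith

end world

theorem le0_res (Y : MM) : T.Le0 ((EF.res T.trJ).obj Y) := by
  let δ : ∀ x : JG, T.trJ.obj x ⟶ T.trJ.obj (T.trJ.obj x) := fun x =>
    Gr.homMk (𝟙 x.ob) ⟨le_rfl, le_min le_rfl (min_le_right _ _)⟩
  refine T.idem_eM.co ⟨fun x => Y.map (δ x), fun w => (Y.map_comp _ _).symm.trans
    ((congrArg Y.map (Gr.hom_ext ?_)).trans (Y.map_comp _ _))⟩ (EF.hom_ext' fun x =>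
      (Y.map_comp _ _).symm.trans ((congrArg Y.map (Gr.hom_ext ?_)).trans (Y.map_id _)))
  · exact (Category.comp_id _).trans (Category.id_comp _).symm
  · exact Category.id_comp _

/-- Truncations exist. -/
theorem trE {p : ℕ} (hp : p.Prime) : Tr (W.tE p) := fun Y =>
  ⟨(W.sE p).obj ((EF.res T.trJ).obj Y.obj), _, _,
    (W.realE p).cone (isPushout_cone (T.eap T.eM Y.obj)),
    fun l _ _ hT => (W.realE p).van_cone (fun k => W.bij_cell' (T.degIso_eM _) hT k) l,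
    (W.worldE hp).stab_le0 (le0_res _)⟩

variable (st τ) (π : Par Lam)

/-- supports and profile -/
structure GP (X : MM) (ω : Lam → ℤ → Prop) (N : ℤ) : Prop where
  posT : PosT X 0
  posL : PosL X
  prof : Pr τ π (st.obj X) ω N

/-- universal bounds for the change of the profile -/
structure UP {B B' : CommMon MM} (f : B ⟶ B') (D : Set (Lam × ℤ)) (dN : ℤ) : Prop where
  ex {A : CommMon MM} (u : B ⟶ A) : ∃ (A' : CommMon MM) (g : A ⟶ A') (u' : B' ⟶ A'),
    IsPushout f u u' g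
  gp {A A' : CommMon MM} {u : B ⟶ A} {g : A ⟶ A'} {u' : B' ⟶ A'} (h : IsPushout f u u' g)
    {ω : Lam → ℤ → Prop} {N : ℤ} (hω : Mn ω) : GP st τ π A.X ω N → GP st τ π A'.X (sh ω D) (N + dN)

variable {st τ π} {X Y : MM} {ω ω' : Lam → ℤ → Prop} {N N' dN dN' k : ℤ} {D D' : Set (Lam × ℤ)}
  {A A' B B' B'' : CommMon MM} {f : B ⟶ B'} {f' : B' ⟶ B''}

section up

omit [SymmetricCategory C] [MonoidalPreadditive C] [st.Monoidal]

theorem GP.mono (h : GP st τ π X ω N) (hW : ∀ a W, ω' a W → ω a W) (hN : N ≤ N') :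
    GP st τ π X ω' N' := ⟨h.posT, h.posL, h.prof.mono hW hN⟩

theorem GP.of_iso (h : GP st τ π X ω N) (e : X ≅ Y) : GP st τ π Y ω N :=
  ⟨posT_of_iso h.posT e, posL_of_iso h.posL e, h.prof.of_iso (st.mapIso e)⟩

namespace UP

theorem self (h : UP st τ π f D dN) (hω : Mn ω) (k : GP st τ π B.X ω N) :
    GP st τ π B'.X (sh ω D) (N + dN) :=
  h.gp (u := 𝟙 B) (g := f) (u' := 𝟙 B') (IsPushout.of_vert_isIso ⟨by simp⟩) hω k

theorem mono (h : UP st τ π f D dN) (hW : D ⊆ D') (hN : dN ≤ dN') : UP st τ π f D' dN' :=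
  ⟨h.ex, fun l _ _ k1 k2 => (h.gp l k1 k2).mono (fun _ _ k => k.mono hW) (by omega)⟩

theorem of_isIso (f : B ⟶ B') [IsIso f] : UP st τ π f 0 0 :=
  ⟨fun u => ⟨_, 𝟙 _, inv f ≫ u, IsPushout.of_horiz_isIso ⟨by simp⟩⟩, fun {_ _ _ g _} l _ _ _ k =>
    have := l.isIso_inr_of_isIso
    (k.of_iso (ahIso (asIso g))).mono (fun _ _ => sh_zero.1) (by omega)⟩

theorem comp (h : UP st τ π f D dN) (h' : UP st τ π f' D' dN') :
    UP st τ π (f ≫ f') (D + D') (dN + dN') := by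
  refine ⟨fun u => ?_, fun {_ _ u g u'} l W N hW k => ?_⟩
  · obtain ⟨A₁, g₁, u₁, l₁⟩ := h.ex u
    obtain ⟨A₂, g₂, u₂, l₂⟩ := h'.ex u₁
    exact ⟨A₂, g₁ ≫ g₂, u₂, l₁.paste_horiz l₂⟩
  · obtain ⟨A₁, g₁, u₁, l₁⟩ := h.ex u
    have w : f ≫ f' ≫ u' = u ≫ g := by rw [← l.w, Category.assoc]
    have l₂ : IsPushout f' u₁ u' (l₁.desc (f' ≫ u') g w) :=
      IsPushout.of_left (by rwa [l₁.inr_desc]) (l₁.inl_desc _ _ _).symm l₁
    exact (h'.gp l₂ (hW.sh D) (h.gp l₁ hW k)).mono (fun _ _ => sh_add.1) (by omega)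

/-- base change -/
theorem bc (h : UP st τ π f D dN) {u : B ⟶ A} {g : A ⟶ A'} {u' : B' ⟶ A'}
    (l : IsPushout f u u' g) : UP st τ π g D dN := by
  refine ⟨fun v => ?_, fun l' => h.gp (l.paste_vert l')⟩
  obtain ⟨A₁, g₁, u₁, l₁⟩ := h.ex (u ≫ v)
  have w : f ≫ u₁ = u ≫ v ≫ g₁ := by rw [l₁.w, Category.assoc]
  exact ⟨A₁, g₁, l.desc u₁ (v ≫ g₁) w,
    IsPushout.of_top (by rwa [l.inl_desc]) (l.inr_desc _ _ _) l⟩

/-- the profile of `A ⊗ B` -/
theorem cten {f : CommMon.trivial MM ⟶ B} (h : UP st τ π f D dN) (hω : Mn ω)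
    (k : GP st τ π A.X ω N) : GP st τ π (A.X ⊗ B.X) (sh ω D) (N + dN) :=
  h.gp (isPushout_cten default f).flip hω k

theorem of_attach {i : B ⟶ B'} {x : X ⟶ B.X} {χ : X ⊗ CI MM ⟶ B'.X} (att : IsAttach i x χ)
    (hT : PosT X 0) (hL : PosL X)
    (h : ∀ {A A' : CommMon MM} {i : A ⟶ A'} {x : X ⟶ A.X} {χ : X ⊗ CI MM ⟶ A'.X}
      {ω : Lam → ℤ → Prop} {N : ℤ}, IsAttach i x χ → Mn ω → GP st τ π A.X ω N →
        Pr τ π (st.obj A'.X) (sh ω D) (N + dN)) : UP st τ π i D dN :=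
  ⟨((Ext.single (P := fun _ => True) ⟨X, x, i, χ, att⟩ trivial).exists_isPushout · |>.imp
      fun _ k => k.imp fun _ k => k.imp fun _ k => k.1),
    fun l _ _ hW k => ⟨posT_attach (att.of_isPushout l) k.posT hT,
      posL_attach (att.of_isPushout l) k.posL hL, h (att.of_isPushout l) hW k⟩⟩

end UP

end up

/-- the sources of the cells of filtration degree zero -/
def Nu (p : ℕ) (X : MM) : Prop := ∃ (a : Lam) (k : ℤ), NF X (a, 0) k ∧ Ok p a k

variable {P Lm : ℕ} {hp : 0 < p} (H : World st c τ p) {a : Lam} {i : B ⟶ B'} {x : X ⟶ B.X}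
  {χ : X ⊗ CI MM ⟶ B'.X}
include H

theorem up_ext (hL : Lm < p ^ 2) {n : ℕ} (h : Ext (Nu p) n i) :
    UP st τ (par p P Lm hp) i 0 n := by
  induction h with
  | iso n f => exact (UP.of_isIso f).mono le_rfl (Int.natCast_nonneg n)
  | step _ s hs ih =>
    obtain ⟨a, k, hX, ok⟩ := hs
    exact (ih.comp (UP.of_attach (D := 0) s.att (nf_posT hX le_rfl) (nf_posL hX ok.1.1)
      fun att hW h => (pr_nu H h.prof hW hL h.posL att hX ok).mono (fun _ _ => sh_zero.1)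
        le_rfl)).mono (add_zero _).le (Nat.cast_succ _).ge

theorem up_odd {f : ℕ} (hP : P < p) (att : IsAttach i x χ) (hX : NF X (a, f) k) (hk : Even k)
    (hf : 1 ≤ f) (ha : 0 ≤ ell a) (hd : bd p a ≤ p * (k + 1)) :
    UP st τ (par p P Lm hp) i (one a f) 0 :=
  UP.of_attach att (nf_posT hX (Int.natCast_nonneg f)) (nf_posL hX ha) fun att _ h => by
    rw [add_zero]
    exact pr_odd H h.prof hP h.posT att hX hk hf ha hd

theorem up_pair (hT : Tr τ) {f m : ℕ} {x : cone (tX X f) ⟶ B.X} {χ : cone (tX X f) ⊗ CI MM ⟶ B'.X}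
    (hP : P < p) (hL : Lm < (p - 1) * p) (att : IsAttach i x χ)
    (hX : NF X (ee m, 0) (dd p m - 2)) (hf : 1 ≤ f) :
    UP st τ (par p P Lm hp) i (one (ee m) f) 0 :=
  UP.of_attach att (supp_cone_tX wT_mono (nf_posT hX le_rfl) f)
    (supp_cone_tX wL_mono (nf_posL hX (ee_mem m).1) f) fun att hW h => by
    rw [add_zero]
    exact pr_pair H hT h.prof hW hP hL h.posL att hX hf

omit H [SymmetricCategory C] [MonoidalPreadditive C] [st.Monoidal] in
/-- objects of weight zero -/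
theorem gp_zero {p : ℕ} {hp : 0 < p} (h : Prof (W.tE p) (par p P Lm hp) ((W.sE p).obj X) 0 0)
    (h0 : PosT X 0) (h1 : Supp X {g : Gam | g.1 = 0}) :
    GP (W.sE p) (W.tE p) (par p P Lm hp) X w0 0 :=
  ⟨h0, h1.mono fun g (k : g.1 = 0) => show 0 ≤ ell g.1 by rw [k, map_zero], fun a _ k1 _ k3 => by
    by_cases ha : a = 0
    · exact (h a k1).mono (k3 (ha ▸ Cn.zero_mem)) le_rfl
    · exact ProfAt.of_van fun l T _ => W.van_of_supp h1 ha l⟩

end Vale.Agent.P257.G
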