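import Vale.Agent.P257.G.State
import Vale.Agent.P257.M.DivS

/-!
# P257, block G: division of the Frobenius of the last attaching map
-/

open CategoryTheory MonoidalCategory Limits Pointwise

namespace Vale.Agent.P257.G

open Vale.Agent.P251.H Vale.Agent.P251.H.StabInput
open Vale.Agent.P257.A Vale.Agent.P257.T Vale.Agent.P257.W Vale.Agent.P257.K Vale.Agent.P257.M
open Vale.Agent.P257.N (NZ SM kT kP kφ NIso NTw GH CX aH)
open Vale.Agent.P257.F (DH sH RH FW)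
open Equiv (Perm)

theorem scD_four (p j : ℕ) :
    scD p 4 (ee j, ((2 ^ j : ℕ) : ℤ)) = (p • ee j, ((4 * 2 ^ j : ℕ) : ℤ)) := by
  rw [scD_apply, Nat.cast_mul]

theorem ell_le (p : ℕ) {j n : ℕ} (hj : j ≤ n) : ell (p • ee j) ≤ (p * 2 ^ n : ℕ) := by
  rw [ell_next]
  exact_mod_cast Nat.mul_le_mul_left p (Nat.pow_le_pow_right two_pos hj)

/-- the vanishing statement in the next degree -/
theorem van_next {p P Lm j : ℕ} {hp : 0 < p} {X : MM} {N l : ℤ}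
    (h : GP (sE p) (tE p) (V.par p P Lm hp) X (sh w0 (DB j + DS p j)) N)
    (hL : ell (p • ee j) ≤ Lm) (hP : 4 * 2 ^ j ≤ P) (k : l + 3 * 2 ^ j + N < 2 * p ^ (j + 1)) :
    (cE p).Van ((sE p).obj X) (l, (p • ee j, ((4 * 2 ^ j : ℕ) : ℤ))) := by
  refine (h.prof _ _ hL (Int.ofNat_le.2 hP) (win p j)).van le_rfl (Int.ofNat_le.2 hP) ?_
  change (p : ℤ) * l < bd p (p • ee j) - p * N
  rw [bd_next, ← mul_sub]
  exact mul_lt_mul_of_pos_left (by omega) (Int.natCast_pos.2 hp)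

variable {ι : Type} [Finite ι] [Nontrivial ι] [DecidableEq ι] {p : ℕ} [hp : Fact p.Prime]
  [hι : Fact (Nat.card ι = p)] {n : ℕ} {hl : 4 ≤ Nat.card ι} {j : ℕ} {c : D.O} {m : ℕ}

section

variable (σ : Core ι p n hl j) (hj : j < n)
include hj

omit [DecidableEq ι] hι in
theorem Core.nIso (a : Lam) : NIso p σ.nz (a, ((4 * 2 ^ j : ℕ) : ℤ)) :=
  (σ.un.gd σ.upB.gp.posT).iso a _ (Int.ofNat_le.2 (four_mul_le hj))

omit [DecidableEq ι] hι in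
theorem Core.nTw : NTw p σ.nz (p • ee j, ((4 * 2 ^ j : ℕ) : ℤ)) :=
  (σ.un.gd σ.upB.gp.posT).tw' σ.upB.gp (DS_bx p j) (ell_le p hj.le)
    (Int.ofNat_le.2 (four_mul_le hj)) (win p j)

end

omit [Nontrivial ι] in
theorem gh_next [Nonempty ι] {X : MM} (hc : Nonempty c.El)
    (e : X ≅ D.EF.rep (⟨c, (ee j, ((2 ^ j : ℕ) : ℤ))⟩ : JG) ⊗ tpow (S MM) m) :
    GH p ((-1) ^ Fintype.card c.El) (m - p * Fintype.card c.El,
      (p • ee j, ((4 * 2 ^ j : ℕ) : ℤ))) ((sH ι p).obj ((FrL (Perm ι) ι 4).obj X)) :=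
  scD_four p j ▸ N.gh_FrL hc e

variable (C : CX ι p)
include C

theorem gh_div {X : MM} (hc : Nonempty c.El) (hm : (m : ℤ) = Fintype.card c.El + (dd p j - 1))
    (e : X ≅ D.EF.rep (⟨c, (ee j, ((2 ^ j : ℕ) : ℤ))⟩ : JG) ⊗ tpow (S MM) m)
    {V : SC (DH ι p)} {f : (sH ι p).obj ((FrL (Perm ι) ι 4).obj X) ⟶ V}
    (hf : Eu (aH ι (DH ι p)) (m + 2) f) :
    GH p 1 (dd p (j + 1) - 1, (p • ee j, ((4 * 2 ^ j : ℕ) : ℤ))) V := by
  refine ((gh_next hc e).eu C hf).cast ?_ (Prod.ext ?_ rfl)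
  · rw [← pow_add]
    refine Even.neg_one_pow ((Int.even_coe_nat _).1 ⟨Fintype.card c.El + p ^ j, ?_⟩)
    push_cast
    rw [hm, dd]
    ring
  · push_cast
    rw [hm, dd, dd]
    ring

/-- The Frobenius of the last attaching map is divisible by `a ^ (m + 2)`. -/
theorem Core.div (σ : Core ι p n hl j) (h : Num p n) (hj : j < n) (hc : Nonempty c.El)
    (hm : (m : ℤ) = Fintype.card c.El + (dd p j - 1))
    (e : σ.s.X ≅ D.EF.rep (⟨c, (ee j, ((2 ^ j : ℕ) : ℤ))⟩ : JG) ⊗ tpow (S MM) m)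
    {V : SC (DH ι p)} {f : (sH ι p).obj ((FrL (Perm ι) ι 4).obj σ.s.X) ⟶ V}
    (hf : Eu (aH ι (DH ι p)) (m + 2) f) :
    Function.Surjective fun g : V ⟶ (sH ι p).obj σ.nz.Z.X => f ≫ g := by
  refine N.eu_surj C (by omega) hf (gh_next hc e) (σ.nIso hj _) (σ.nTw hj) fun k hk hs =>
    van_next σ.upN.gp (ell_le p hj.le) (four_mul_le hj) ?_
  rw [← pow_add] at hs
  obtain ⟨r, hr⟩ := (neg_one_pow_eq_one_iff_even (by decide)).1 hs
  have h1 : (k : ℤ) ≤ m := by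
    rw [dd] at hm
    omega
  have h2 : (k : ℤ) * (p - 1) ≤ m * (p - 1) :=
    mul_le_mul_of_nonneg_right h1 (by have := hp.out.pos; omega)
  have h3 : (4 : ℤ) * 2 ^ j < p := by exact_mod_cast (four_mul_le hj).trans_lt h.lt
  have h4 : (m : ℤ) - p * Fintype.card c.El + m * (p - 1) = 2 * p ^ (j + 1) - 2 * p := by
    rw [hm, dd]
    ring
  have h5 : (0 : ℤ) < 2 ^ j := by positivity
  push_cast
  omega

universe w

variable {MU : EE p} [MonObj MU] {A₀ : Type w} [CommRing A₀] {G₀ : L.RegSeq p A₀}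
  {Co : L.Coef (SC.sph (De p)) MU G₀}

/-- The division together with the detection of the quotient. -/
theorem Core.exists_next (h : Num p n) (hG : Glue ι n hl Co) (hj : j < n)
    (σ : Core ι p n hl j) (hd : σ.Det Co) :
    ∃ (Y : Action MM (Perm ι)) (q : (sH ι p).obj Y ⟶ (sH ι p).obj σ.nz.Z.X) (X : MM)
      (y : X ⟶ σ.nz.N.X) (t : (kT ι p).obj ((sE p).obj X) ≅ (kP ι p).obj Y)
      (f : (sH ι p).obj ((FrL (Perm ι) ι 4).obj σ.s.X) ⟶ (sH ι p).obj Y),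
      PosT Y.V (4 * 2 ^ j : ℕ) ∧ NF X (p • ee j, (4 * 2 ^ j : ℕ)) (dd p (j + 1) - 1) ∧
      (kT ι p).map ((sE p).map y) ≫ kφ p σ.nz.φ = t.hom ≫ (Kl.ks _).map q ∧
      f ≫ q = (sH ι p).map σ.Fv ∧
      Dn Co σ.tc1.i0 (p • ee j) (j + 1) ((sE p).map (y ≫ ah σ.fold)) ∧
      HV ((FrL (Perm ι) ι 4).obj σ.s.X).V ∧ PosT ((FrL (Perm ι) ι 4).obj σ.s.X).V 1 := by
  obtain ⟨c, m, hc, hm, ⟨e⟩⟩ := σ.hs
  have hf := eu_st (Eu.of_tpow (aR ι) ((FrL (Perm ι) ι 4).obj σ.s.X) (m + 2)) (DH ι p)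
  obtain ⟨g, hg⟩ := σ.div C h hj hc hm e hf ((sH ι p).map σ.Fv)
  obtain ⟨Y, y, t, h1, h2⟩ := N.exists_sigma C (by omega) (σ.nIso hj _) (gh_div C hc hm e hf) g
  have k := F.nf_FrL (G := Perm ι) (ι := ι) (lam := 4) hc e
  rw [hι.out, scD_four] at k
  obtain ⟨u⟩ := h1.iso p
  refine ⟨FW ι 4 σ.s.X (m + 2), g, Y, y, t, _, ?_, h1, h2, hg, ?_, k.hv,
    k.posT (Int.ofNat_le.2 (Nat.mul_pos four_pos (Nat.two_pow_pos j)))⟩
  · refine (F.nf_FW hc e (m + 2)).posT ?_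
    rw [scD_four]
  · rw [Functor.map_comp]
    exact hG j hj σ hd c m hc hm e _ _ hf g hg _ u t _ h2

end Vale.Agent.P257.G
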