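import Vale.Agent.P257.W.MUD

/-!
# P257, block G: detected classes descend in the window
-/

open CategoryTheory MonoidalCategory Limits MonObj

universe w

namespace Vale.Agent.P257.G

open Vale.Agent.P251.H Vale.Agent.P251.H.StabInput
open Vale.Agent.P251.M (IsInv whiskerRight_inj whiskerRight_surj)
open K M D D.EF C A T L W

variable {p : ℕ} {T : CommMon MM} {a : Lam} {r f m : ℕ} {W J : ℤ} {φ : T0 ⟶ T} {X Y Z : EE p}

theorem add_deg (a : Lam) (r f : ℕ) :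
    ((a, (r : ℤ)) : Gam) + (0, (f : ℤ)) = (a, ((r + f : ℕ) : ℤ)) := by simp

/-- raising the filtration degree -/
noncomputable def upIso (P : EE p) (a : Lam) (r f : ℕ) :
    (P ⊗ (sE p).obj (rp (a, (r : ℤ)))) ⊗ (sE p).obj (rp (0, (f : ℤ))) ≅
      P ⊗ (sE p).obj (rp (a, ((r + f : ℕ) : ℤ))) :=
  α_ _ _ _ ≪≫ whiskerLeftIso P ((sE p).mapIso (rpAdd (add_deg a r f)))

theorem bij_t (h : V.Stab (tE p) (r + f : ℕ) Z a W) (hW : W ≤ r) :
    Function.Bijective fun w : (cE p).obj (J, (a, (r : ℤ))) ⟶ Z =>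
      _ ◁ (sE p).map (t1 f) ≫ (ρ_ _).hom ≫ w := by
  have b := (bij_of_stab h (f := f) (by push_cast; omega) J).of_iso (upIso _ a r f)
  have e : (fun w : (cE p).obj (J, (a, (r : ℤ))) ⟶ Z => _ ◁ (sE p).map (t1 f) ≫ (ρ_ _).hom ≫ w) =
      (· ≫ (ρ_ Z).hom) ∘ (· ≫ Z ◁ (sE p).map (t1 f)) ∘ (· ▷ (sE p).obj (rp (0, (f : ℤ)))) := by
    funext w
    exact ((congrArg _ (rightUnitor_naturality w).symm).trans (whisker_exchange_assoc _ _ _)).trans
      (Category.assoc _ _ _).symm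
  rw [e]
  exact Function.Bijective.comp (Bij.of_isIso _ _) (Function.Bijective.comp b
    ⟨fun _ _ k => whiskerRight_inj _ k, whiskerRight_surj _⟩)

theorem ut_add (a : Lam) (r f : ℕ) :
    (rpAdd (add_deg a r f)).hom ≫ ut a (r + f) = tX _ f ≫ ut a r := by
  have h : unG (0, (f : ℤ)) (Int.natCast_nonneg f) = t1 f ≫ η[T0.X] := by
    rw [← unG_zero]
    exact (tm_unG _ _).symm
  rw [← unG_mul' _ (Int.natCast_nonneg r) (Int.natCast_nonneg f), h, ← W.tX_nat, tX,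
    MonoidalCategory.tensorHom_def, MonoidalCategory.whiskerLeft_comp, Category.assoc,
    Category.assoc, MonObj.mul_one]

variable {R : EE p} [MonObj R] {A₀ : Type w} [CommRing A₀] {G : RegSeq p A₀}
  {Q : Coef (SC.sph (De p)) R G}

/-- **Descent of detected classes.** -/
theorem detV_down {r' : ℕ} (e : r + f = r') {v : Y ⟶ (sE p).obj T.X}
    (c : Y ≅ (cE p).obj (J, (a, (r' : ℤ)))) (h : DetV Q m φ a r' v)
    (s : V.Stab (tE p) r' ((sE p).obj T.X) a W) (s' : V.Stab (tE p) r' (R ⊗ (sE p).obj T.X) a W)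
    (hW : W ≤ r) : ∃ v₀ : (cE p).obj (J, (a, (r : ℤ))) ⟶ (sE p).obj T.X, DetV Q m φ a r v₀ ∧
      ∀ {Z : EE p} (ψ : (sE p).obj T.X ⟶ Z), v₀ ≫ ψ = 0 → v ≫ ψ = 0 := by
  subst e
  obtain ⟨i⟩ : Nonempty ((cE p).obj (J, (a, (r : ℤ))) ⊗ (sE p).obj (rp (0, (f : ℤ))) ≅ Y) :=
    ⟨upIso _ a r f ≪≫ c.symm⟩
  obtain ⟨v₀, hv⟩ := (bij_t s hW).2 (i.hom ≫ v)
  beta_reduce at hv
  obtain ⟨e, x, hx, k⟩ := h
  obtain ⟨δ, hδ⟩ := exists_iso_whiskerRight (i ≪≫ e ≪≫ (upIso _ a r f).symm)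
  refine ⟨v₀, ⟨δ, x, hx, (bij_t s' hW).1 ?_⟩, fun ψ l => ?_⟩
  · beta_reduce
    have h1 : (sE p).obj (rp (a, (r : ℤ))) ◁ (sE p).map (t1 f) ≫ (ρ_ _).hom ≫
        (sE p).map (ut a r ≫ ah φ) =
        (sE p).map (rpAdd (add_deg a r f)).hom ≫ (sE p).map (ut a (r + f) ≫ ah φ) := by
      rw [← Functor.map_comp, reassoc_of% ut_add, Functor.map_comp _ (tX _ f), sE_tX, Category.assoc]
    rw [one_tensor, reassoc_of% hv, ← one_tensor, k, mul_tensor, h1, ← hδ,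
      ← whiskerLeft_comp_tensorHom]
    simp [upIso]
  · have := congrArg (· ≫ ψ) hv
    beta_reduce at this
    rwa [Category.assoc, Category.assoc, l, comp_zero, comp_zero, eq_comm, Category.assoc,
      Preadditive.IsIso.comp_left_eq_zero] at this

end Vale.Agent.P257.G
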