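import Vale.Agent.P257.M.Defs

/-!
# P257, block G: the cone of supports and windows which depend on the weight

* `Cn` : the cone which contains the weights of all cells;
* `sh ω D`, `w0`, `Mn` : windows;
* `DB j`, `DS p j` : weights and filtration degrees of the products of cells; `win` : the estimate.
-/

open Pointwise

namespace Vale.Agent.P257.G

open Vale.Agent.P257.M

section win

variable {Λ : Type} [AddCommGroup Λ]

/-- the window after cells with the weights and degrees in `D` have been attached -/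
def sh (ω : Λ → ℤ → Prop) (D : Set (Λ × ℤ)) (a : Λ) (W : ℤ) : Prop :=
  ∀ x ∈ D, ω (a - x.1) (W - x.2)

/-- one cell -/
def one (g : Λ) (f : ℤ) : Set (Λ × ℤ) := {0, (g, f)}

variable {ω : Λ → ℤ → Prop} {D D' : Set (Λ × ℤ)} {a g : Λ} {W f : ℤ}

theorem sh_one : sh ω (one g f) a W ↔ ω a W ∧ ω (a - g) (W - f) := by
  simp [sh, one]

theorem sh_zero : sh ω 0 a W ↔ ω a W := by simp [sh]

theorem sh.mono (h : sh ω D' a W) (k : D ⊆ D') : sh ω D a W := fun x hx => h x (k hx)

theorem sh_add : sh ω (D + D') a W ↔ sh (sh ω D) D' a W := by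
  constructor
  · intro h y hy x hx
    have := h _ (Set.add_mem_add hx hy)
    rwa [Prod.fst_add, Prod.snd_add, add_comm x.1, add_comm x.2, ← sub_sub, ← sub_sub] at this
  · rintro h _ ⟨x, hx, y, hy, rfl⟩
    have := h y hy x hx
    rwa [sub_sub, sub_sub, add_comm y.1, add_comm y.2] at this

theorem zero_mem_one : 0 ∈ one g f := Or.inl rfl

end win

/-- the linear forms which define the cone -/
noncomputable def el (m : ℕ) : Lam →+ ℤ :=
  wt fun k => if m < k then 2 ^ (k - m - 1) else if k = m then 1 else 0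

theorem el_ee (m k : ℕ) :
    el m (ee k) = if m < k then 2 ^ (k - m - 1) else if k = m then 1 else 0 := wt_ee _ _

theorem el_self (m : ℕ) : el m (ee m) = 1 := by simp [el_ee]

theorem el_succ (m : ℕ) : el m (ee (m + 1)) = 1 := by simp [el_ee]

theorem el_two {m k : ℕ} (h : m < k) : el m (ee (k + 1)) = 2 * el m (ee k) := by
  rw [el_ee, el_ee, if_pos h, if_pos (by omega), ← pow_succ', show k + 1 - m - 1 = k - m - 1 + 1 by
    omega]

/-- the cone -/
def Cn : AddSubmonoid Lam where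
  carrier := {a | 0 ≤ ell a ∧ ∀ m, 0 ≤ el m a}
  zero_mem' := ⟨by simp, fun m => by simp⟩
  add_mem' h k := ⟨by rw [map_add]; exact add_nonneg h.1 k.1,
    fun m => by rw [map_add]; exact add_nonneg (h.2 m) (k.2 m)⟩

theorem ee_mem (i : ℕ) : ee i ∈ Cn := ⟨by rw [ell_ee]; positivity, fun m => by
  rw [el_ee]
  split_ifs <;> positivity⟩

/-- the sum of the first basic weights -/
noncomputable def on (i : ℕ) : Lam := ∑ k ∈ Finset.range i, ee k

theorem on_succ (i : ℕ) : on (i + 1) = on i + ee i := Finset.sum_range_succ _ _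

theorem on_mem (i : ℕ) : on i ∈ Cn := Cn.sum_mem fun k _ => ee_mem k

theorem el_on (m i : ℕ) : el m (on i) = if m < i then el m (ee i) else 0 := by
  induction i with
  | zero => simp [on]
  | succ i ih =>
    rw [on_succ, map_add, ih]
    rcases lt_trichotomy m i with h | rfl | h
    · rw [if_pos h, if_pos (by omega), el_two h, two_mul]
    · simp [el_self, el_succ]
    · rw [if_neg (by omega), if_neg (by omega), el_ee, if_neg (by omega), if_neg (by omega),
        add_zero]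

theorem ell_on (i : ℕ) : ell (on i) = 2 ^ i - 1 := by
  induction i with
  | zero => simp [on]
  | succ i ih => rw [on_succ, map_add, ih, ell_ee]; ring

theorem ee_sub_on (i : ℕ) : ee i - on i ∈ Cn := ⟨by rw [map_sub, ell_on, ell_ee]; omega, fun m => by
  rw [map_sub, el_on]
  split_ifs
  · rw [sub_self]
  · rw [sub_zero]
    exact (ee_mem i).2 m⟩

/-- `a - on i` lies in the cone -/
def Q (i : ℕ) (a : Lam) : Prop := a - on i ∈ Cn

theorem Q.mem {i : ℕ} {a : Lam} (h : Q i a) : a ∈ Cn := by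
  simpa using Cn.add_mem h (on_mem i)

theorem Q.sub {i : ℕ} {a : Lam} (h : Q (i + 1) a) : Q i (a - ee i) := by
  rwa [Q, on_succ, add_comm, ← sub_sub] at h

theorem Q.pred {i : ℕ} {a : Lam} (h : Q (i + 1) a) : Q i a := by
  have := Cn.add_mem h.sub (ee_mem i)
  rwa [sub_right_comm, sub_add_cancel] at this

/-- windows which are compatible with the cone -/
def Mn (ω : Lam → ℤ → Prop) : Prop := ∀ g ∈ Cn, ∀ a W, ω a W → ω (a - g) W

theorem Mn.sh {ω : Lam → ℤ → Prop} (h : Mn ω) (D : Set (Lam × ℤ)) : Mn (sh ω D) :=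
  fun g hg a W k x hx => by
    rw [sub_right_comm]
    exact h g hg _ _ (k x hx)

/-- the window of the unit -/
def w0 (a : Lam) (W : ℤ) : Prop := a ∈ Cn → 0 ≤ W

theorem mn_w0 : Mn w0 := fun g hg a W h k => h (by simpa using Cn.add_mem k hg)

/-- the products of the pairs of cells -/
def DB : ℕ → Set (Lam × ℤ)
  | 0 => one (ee 0) (2 ^ 0 : ℕ)
  | j + 1 => DB j + one (ee (j + 1)) (2 ^ (j + 1) : ℕ)

/-- the products of the cells `σ` -/
def DS (p : ℕ) : ℕ → Set (Lam × ℤ)
  | 0 => one 0 1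
  | j + 1 => DS p j + one (p • ee j) (4 * 2 ^ j : ℕ)

/-- weights in the cone, degrees in `[0, r]` -/
def Bx (r : ℤ) : Set (Lam × ℤ) := {x | x.1 ∈ Cn ∧ 0 ≤ x.2 ∧ x.2 ≤ r}

theorem bx_add {D D' : Set (Lam × ℤ)} {r s : ℤ} (h : D ⊆ Bx r) (k : D' ⊆ Bx s) :
    D + D' ⊆ Bx (r + s) := by
  rintro _ ⟨x, hx, y, hy, rfl⟩
  exact ⟨Cn.add_mem (h hx).1 (k hy).1, add_nonneg (h hx).2.1 (k hy).2.1,
    add_le_add (h hx).2.2 (k hy).2.2⟩

theorem bx_one {g : Lam} {f : ℤ} (hg : g ∈ Cn) (hf : 0 ≤ f) : one g f ⊆ Bx f := by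
  rintro _ (rfl | rfl)
  exacts [⟨Cn.zero_mem, le_rfl, hf⟩, ⟨hg, hf, le_rfl⟩]

theorem DB_bx : ∀ j, DB j ⊆ Bx (2 * 2 ^ j - 1)
  | 0 => bx_one (ee_mem 0) zero_le_one
  | j + 1 => by
    have := bx_add (DB_bx j) (bx_one (ee_mem (j + 1)) (Int.natCast_nonneg (2 ^ (j + 1))))
    rwa [show 2 * 2 ^ j - 1 + ((2 ^ (j + 1) : ℕ) : ℤ) = 2 * 2 ^ (j + 1) - 1 by
      push_cast; ring] at this

theorem DS_bx (p : ℕ) : ∀ j, DS p j ⊆ Bx (4 * 2 ^ j - 3)
  | 0 => bx_one Cn.zero_mem zero_le_one
  | j + 1 => by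
    have := bx_add (DS_bx p j) (bx_one (Cn.nsmul_mem (ee_mem j) p) (Int.natCast_nonneg (4 * 2 ^ j)))
    rwa [show 4 * 2 ^ j - 3 + ((4 * 2 ^ j : ℕ) : ℤ) = 4 * 2 ^ (j + 1) - 3 by
      push_cast; ring] at this

theorem win_aux (p j : ℕ) : ∀ x ∈ DB j, ∀ y ∈ DS p j,
    (∀ m < j, 0 ≤ el m (p • ee j - (x + y).1)) → (x + y).2 ≤ 4 * 2 ^ j := by
  induction j with
  | zero =>
    intro x hx y hy _
    have h1 := (DB_bx 0 hx).2.2
    have h2 := (DS_bx p 0 hy).2.2
    rw [Prod.snd_add]
    omega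
  | succ j ih =>
    rintro _ ⟨x, hx, u, hu, rfl⟩ _ ⟨y, hy, v, hv, rfl⟩ h
    have h1 := DB_bx j hx
    have h2 := DS_bx p j hy
    have h3 := h1.2.2
    have h4 := h2.2.2
    simp only [Prod.snd_add, Prod.fst_add, map_sub, map_add, map_nsmul, nsmul_eq_mul] at h ⊢
    rcases hv with rfl | rfl
    · have h5 := (bx_one (ee_mem (j + 1)) (Int.natCast_nonneg (2 ^ (j + 1))) hu).2.2
      push_cast at h5
      rw [Prod.snd_zero]
      omega
    · rcases hu with rfl | rfl
      · have h5 := ih x hx y hy fun m hm => by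
          have := h m (by omega)
          simp only [Prod.fst_add, map_sub, map_add, map_nsmul, nsmul_eq_mul, Prod.fst_zero,
            map_zero, el_two hm] at this ⊢
          linarith
        rw [Prod.snd_add] at h5
        push_cast
        rw [Prod.snd_zero]
        omega
      · have h5 := h j j.lt_succ_self
        have h6 := h1.1.2 j
        have h7 := h2.1.2 j
        simp only [map_nsmul, nsmul_eq_mul, el_succ, el_self] at h5
        omega

/-- **The window in the weight `p • ee j`.** -/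
theorem win (p j : ℕ) : sh w0 (DB j + DS p j) (p • ee j) (4 * 2 ^ j : ℕ) := by
  rintro _ ⟨x, hx, y, hy, rfl⟩ h
  have := win_aux p j x hx y hy fun m _ => h.2 m
  push_cast
  exact sub_nonneg.2 this

end Vale.Agent.P257.G
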