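import Vale.Agent.P257.N.Base
import Vale.Agent.P257.G.Num

/-!
# P257, block G: good levels with windows which depend on the weight

`Gd p P D B a`, `UN p P a D`; the steps `sigma`, `kappa` and the base level.
-/

open CategoryTheory MonoidalCategory Limits Functor.LaxMonoidal Functor.OplaxMonoidal Pointwise

namespace Vale.Agent.P257.G

open Vale.Agent.P251.H Vale.Agent.P251.H.StabInput
open Vale.Agent.P251.M (IsInv)
open Vale.Agent.P257.A Vale.Agent.P257.T Vale.Agent.P257.K Vale.Agent.P257.L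
open Vale.Agent.P257.M Vale.Agent.P257.C Vale.Agent.P257.W Vale.Agent.P257.N
open Vale.Agent.P257.E (triv JA tt tt_nat tt_assoc tau_st tauRsA rot_aP)
open Vale.Agent.P257.F (DH sH RH RM)
open Vale.Agent.P257.Z (Sg AA DA VA Cb QD RT fd tA nul cb fld coneBase_nul)
open Equiv (Perm)

set_option linter.unusedSectionVars false

variable {ι : Type} [Finite ι] (p : ℕ) {B B' : CommMon MM}

/-- good levels -/
structure Gd (P : ℤ) (D : Set (Lam × ℤ)) (B : CommMon MM) (a : NZ (SM ι) B) : Prop where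
  posN : PosT a.N.X 0
  posZ : PosT a.Z.X.V 0
  iso (b : Lam) (T : ℤ) : T ≤ P → NIso p a (b, T)
  tw (b : Lam) (T : ℤ) : T ≤ P →
    sh (V.Stab (tE p) P ((sE p).obj B.X)) D b T → NTw p a (b, T)

/-- universally good levels -/
def UN (P : ℤ) (a : NZ (SM ι) B) (D : Set (Lam × ℤ)) : Prop :=
  UNZ (fun B a => PosT B.X 0 → Gd p P D B a) a

variable {p} {P r : ℤ} {D : Set (Lam × ℤ)} {a b : NZ (SM ι) B}

namespace UN

theorem ex (h : UN p P a D) (f : B ⟶ B') : ∃ (a' : NZ (SM ι) B') (k : NZ.Hom f a a'), k.PO :=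
  UNZ.ex h f

theorem gd (h : UN p P a D) (hB : PosT B.X 0) : Gd p P D B a := UNZ.self h hB

theorem bc (h : UN p P a D) {f : B ⟶ B'} {a' : NZ (SM ι) B'} {k : NZ.Hom f a a'} (hk : k.PO) :
    UN p P a' D := UNZ.bc h hk

end UN

variable [hp : Fact p.Prime] [hι : Fact (Nat.card ι = p)] [Nontrivial ι] (C : CX ι p) {A : MM}
  {X Y Q : Action MM (Perm ι)}
include C

section steps

variable {e : (uL (SM ι)).obj A ⟶ Y}

theorem Gd.sigma (h : Gd p P D B a) (hP : P < p) (s : NZ.Step e a b) {c : Lam} {w k : ℤ}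
    (hA : NF A (c, w) k) (hk : Even k) (hw : 1 ≤ w) [IsIso (kφ p e)]
    (hv : HV Y.V) (hY : PosT Y.V 1) : Gd p P (D + one c w) B b := by
  obtain ⟨i⟩ := hA.iso p
  have : IsInv ((sE p).obj A) := have := F.isInv_cell (cE p) (k, (c, w)); IsInv.of_iso i.symm
  have hZ := bij_c1_hom C s.attZ hv h.posZ hY
    ⟨((vx C (Classical.arbitrary ι)).lift.mapIso (asIso (kφ p e))).symm ≪≫ i⟩ hk
  refine ⟨V.posT_attach s.attN h.posN (hA.posT (by omega)),
    V.posT_attach s.attZ.und h.posZ (V.posT_mono hY zero_le_one), fun d T hT l => ?_,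
    fun d T h3 hs l => ?_⟩
  · have t : ∀ l, FB (kT ι p) ((cE p).obj (l, (d, T))) (δ _ _ _ ≫ (kφ p a.φ ⊗ₘ kφ p e)) := fun l =>
      fb_tensor _ _ _ (cSub _ (k, (c, w)) ≪≫ whiskerLeftIso _ i.symm)
        (h.iso (d - c) (T - w) (by omega) (l - k))
    exact fb_c1 _ _ _ a.isOpHom_φ b.isOpHom_φ s.hx s.hom.φ_z s.hχ s.attN.w s.attZ.w (cPred l _)
      (h.iso d T hT l) (h.iso d T hT _) (t _) (t _)
      ((worldE hp.out).bij_c1 s.attN hA.hv h.posN (hA.posT hw) ⟨i⟩ hk l d (hT.trans_lt hP))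
      (bijK C (hZ d (hT.trans_lt hP)) l)
  · refine V.Surj.van (.of_bijective (bijK_left C F.nf0_RM (hZ d (h3.trans_lt hP)) l))
      ((isCone_kP _).van_cone (h.tw d T h3 (sh_one.1 (sh_add.1 hs)).1 l) ?_)
    refine (Cells.Van.tensor (e := (k, (c, w))) (h.tw (d - c) (T - w)
      (by omega) (sh_one.1 (sh_add.1 hs)).2 (l - 1 - k))).of_iso ?_
    exact whiskerLeftIso _ ((kT ι p).mapIso i.symm ≪≫ asIso (kφ p e)) ≪≫ α_ _ _ _

theorem Gd.kappa (h : Gd p P D B a) (hP : P < p) (s : NZ.Step e a b) (hA : IsZero A)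
    (hv : HV Y.V) (hY : PosT Y.V 1) (h0 : IsZero ((sE p).obj Y.V)) : Gd p P D B b := by
  have hZ := bij_ah_hom C s.attZ hv h.posZ hY h0
  obtain ⟨j, hj, -⟩ := IsAtt.exists_iso (isAttach_zero hA a.N) (hA.eq_of_src s.x 0 ▸ s.attN)
  refine ⟨V.posT_attach s.attN h.posN (.of_isZero hA),
    V.posT_attach s.attZ.und h.posZ (V.posT_mono hY zero_le_one), fun d T hT l => ?_,
    fun d T h3 hs l => V.Surj.van
      (.of_bijective (bijK_left C F.nf0_RM (hZ d (h3.trans_lt hP)) l)) (h.tw d T h3 hs l)⟩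
  refine FB.of_pre (Bij.of_isIso _ ((sE p).map (ahIso j).hom)) ?_
  rw [← kf_map, show (ahIso j).hom = ah s.hom.n from congrArg ah ((Category.id_comp _).symm.trans hj),
    ← s.hom.φ_z, kf_comp]
  exact (h.iso d T hT l).post (bijK C (hZ d (hT.trans_lt hP)) l)

end steps

section

variable (hP : P < p)
include hP

/-- **The step `σ`.** -/
theorem UN.sigma (h : UN p P a D) {c : Lam} {w k : ℤ} {A : MM} (hA : NF A (c, w) k)
    (hk : Even k) (hw : 1 ≤ w) (hQ : PosT Q.V w)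
    (g : (sH ι p).obj Q ⟶ (sH ι p).obj a.Z.X) (y : A ⟶ a.N.X)
    (t : (kT ι p).obj ((sE p).obj A) ≅ (kP ι p).obj Q)
    (ht : (kT ι p).map ((sE p).map y) ≫ kφ p a.φ = t.hom ≫ (Kl.ks _).map g) :
    ∃ (b : NZ (SM ι) B) (f : NZ.Hom (𝟙 B) a b) (A' : MM) (u : A' ⟶ A) (χ : A' ⊗ CI MM ⟶ b.N.X),
      NF A' (c, w) k ∧ IsIso ((sE p).map u) ∧ IsAttach f.n (u ≫ y) χ ∧ UN p P b (D + one c w) ∧
        g ≫ (sH ι p).map (ah f.z) = 0 := by
  obtain ⟨Y, e, z, j, h1, h2, h3, h4⟩ := exists_fat (D := DH ι p) (A := (uL (SM ι)).obj A)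
    (Kl.un t.hom) g ((uL (SM ι)).map y ≫ a.φ)
    ((congrArg Kl.un ((kf_map _ _ _ y a.φ).trans ht)).trans (Kl.un_comp_ks _ _))
    (fun X => PosT X.V w) (fun _ => posT_UH) posT_I posT_po (posT_uL (hA.posT le_rfl)) hQ
  have : IsIso (kφ p e) := by
    rw [show kφ p e = t.hom ≫ (Kl.ks _).map j.hom from
      Kl.hom_ext (h2.trans (Kl.un_comp_ks _ _).symm)]
    infer_instance
  have : IsIso (kφ p (stb (De p) e)) := IsIso.of_isIso_fac_right (kφ_stb e)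
  obtain ⟨b, s, hx, hy⟩ := a.exists_step (e := stb (De p) e) (x := (De p).t A ≫ y)
    (y := tt (lamU _ (De p)) Y ≫ z) (by
      rw [← Category.assoc, stb_tt, Category.assoc, h1, Functor.map_comp, Category.assoc])
  refine ⟨b, s.hom, _, (De p).t A, s.χ, .U_tensor hA.nf0, inferInstance, hx ▸ s.attN,
    UNZ.step h s fun _ _ _ _ _ _ s' _ _ _ _ _ l hB => (l hB).sigma C hP s' (.U_tensor hA.nf0) hk
      hw (hv_U _) (posT_U (V.posT_mono h4 hw)), ?_⟩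
  have h5 := st_cone_zero (DH ι p) s.ξ
  rw [s.attZ.w, hy, Category.assoc, Functor.map_comp, Preadditive.IsIso.comp_left_eq_zero] at h5
  rw [← h3, Category.assoc, ← Functor.map_comp, h5, comp_zero]

/-- **The step `κ`.** -/
theorem UN.kappa (h : UN p P a D) (x : Y ⟶ a.Z.X) (hx : (sH ι p).map x = 0) (hv : HV Y.V)
    (hY : PosT Y.V 1) : ∃ (Z : CommMon (Action MM (Perm ι))) (z : a.Z ⟶ Z) (χ : Y ⊗ CI _ ⟶ Z.X),
      coneBase Y ≫ χ = x ≫ ah z ∧ UN p P (a.ext z) D := by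
  obtain ⟨k, ζ, hζ⟩ := exists_tt_null hx
  have H := isPushout_cone_whiskerRight ((DH ι p).tk k (𝟙_ _)) Y
  obtain ⟨Z, z, ξ, hz⟩ := exists_isAttach (H.desc ζ _ hζ)
  refine ⟨Z, z, ((λ_ Y).inv ≫ ci _ ▷ Y) ▷ _ ≫ ξ, by
    rw [coneBase_naturality_assoc, hz.w, Category.assoc, H.inr_desc_assoc, Category.assoc,
      Iso.inv_hom_id_assoc], UNZ.step h (a.extStep hz isZero_empty)
    fun _ _ _ _ _ _ s' _ _ _ _ _ l hB => (l hB).kappa C hP s' isZero_empty (hv.tensor' _) ?_ ?_⟩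
  · simpa using V.posT_tensor (posT_coneV ((DH ι p).tk k (𝟙_ _))
      (pr_pw (Pr := fun X : Action MM (Perm ι) => PosT X.V 0) (fun _ => posT_UH) V.posT_unit k) V.posT_unit) hY
  · exact (tensorRight ((sE p).obj Y.V)).map_isZero (isZero_coneV ((DH ι p).tk k (𝟙_ _)))

end

variable [DecidableEq ι] (h3 : 3 ≤ Nat.card ι)
include h3

theorem Gd.base [Fintype ι] {τ} (hτ : C.IsTau τ) (hP : P + 2 ≤ p)
    (hA : NF A (0, ((1 : ℕ) : ℤ)) 0) (e : (sE p).obj A ≅ (sE p).obj (rp (0, ((1 : ℕ) : ℤ))))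
    {x : A ⟶ 𝟙_ MM} {j : QD ι ⟶ Y} [IsIso ((sH ι p).map j)] {z : Y ⟶ 𝟙_ _} (hz : j ≫ z = fd ι)
    {e₀ : (uL (SM ι)).obj A ⟶ Y} (h0 : e₀ ≫ z = (uL (SM ι)).map x ≫ η (uL (SM ι)))
    (h1 : kφ p e₀ = (kT ι p).map e.hom ≫ trf τ ≫ (kP ι p).map j) (hY : PosT Y.V 1)
    {κ : cone j ⟶ (Cb ι).X} (h2 : ck j ≫ κ = nul ι) (h2' : ci j ≫ κ = z ≫ MonObj.one)
    {a b : NZ (SM ι) B} {k : Cb ι ⟶ a.Z} [IsIso a.β] [IsIso (cdsc a.γ k)]
    (s : NZ.Step (stb (De p) (e₀ ≫ ci j)) a b) (hx : s.x = ((De p).t A ≫ x) ≫ MonObj.one)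
    (hy : s.y = (tt (lamU _ (De p)) _ ≫ κ) ≫ ah k) (hB : PosT B.X 0) : Gd p P (one 0 1) B b := by
  have hp3 : 3 ≤ p := hι.out ▸ h3
  have hA' : NF ((De p).U ⊗ A) (0, ((1 : ℕ) : ℤ)) 0 := .U_tensor hA.nf0
  have hK : PosT (cone j).V 1 := posT_coneV j (Z.supp_RT _ |>.mono fun _ h => h.2) hY
  have pZ : PosT a.Z.X.V 0 := Supp.of_iso (V.posT_mono (V.posT_tensor hB Z.posT_Cb) (by simp))
    ((Action.forget _ _).mapIso (ahIso (asIso (cdsc a.γ k))))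
  have hZ := bij_ah_hom C s.attZ (hv_U _) pZ (posT_U hK)
    ((tensorLeft ((sE p).obj (De p).U)).map_isZero (isZero_coneV j))
  have att : IsAttach b.β (((De p).t A ≫ x) ≫ MonObj.one) s.χ := s.hβ ▸ isAtt_iso_comp a.β (by
    rw [Category.assoc, IsMonHom.one_hom, ← hx]
    exact s.attN)
  refine ⟨V.posT_attach att hB (hA'.posT zero_le_one),
    V.posT_attach s.attZ.und pZ (V.posT_mono (posT_U hK) zero_le_one), fun d T hT l => ?_,
    fun d T k3 hs l => ?_⟩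
  · have t := fb_trf C h3 hτ e h1 B.X
    have hξ : coneBase _ ≫ s.ξ = tt (lamU _ (De p)) _ ≫ κ ≫ ah (k ≫ s.hom.z) := by
      rw [s.attZ.w, hy, ah_comp, Category.assoc, Category.assoc]
    have w : coneBase _ ≫ (_ ◁ ci j) ▷ CI _ ≫ s.ξ =
        (tt (lamU _ (De p)) Y ≫ z ≫ MonObj.one) ≫ ah b.γ := by
      rw [coneBase_naturality_assoc, hξ, E.tt_nat_assoc, reassoc_of% h2', Category.assoc,
        Category.assoc, IsMonHom.one_hom, IsMonHom.one_hom]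
    obtain ⟨i⟩ := hA'.iso p
    refine fb_c1 _ _ _ (Z := trivC _ B) (isOpHom_prS B) b.isOpHom_φ 
      (stb_one (Z := trivC _ B) h0 (isOpHom_prS B)) b.β_φ.symm
      (by rw [s.hχ, ← comp_whiskerRight_assoc, ← stb_comp]) att.w w (cPred l _)
      (fb_prS C h3 _ _) (fb_prS C h3 _ _) (t _) (t _)
      ((worldE hp.out).bij_c1 att hA'.hv hB (hA'.posT le_rfl) ⟨i⟩ Even.zero l d (by omega))
      (Kl.bij_ks.2 (bij_dbl _ hz coneBase_nul h2 hξ w ?_))
    rw [show cdsc b.γ (k ≫ s.hom.z) = cdsc a.γ k ≫ s.hom.z from cten_ext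
      (by rw [cinl_cdsc, cinl_cdsc_assoc, s.hγ]) (by rw [cinr_cdsc, cinr_cdsc_assoc]), ah_comp,
      Functor.map_comp, Functor.map_comp]
    exact (Z.bij_cb_tau hp3 (X := (triv _).obj B.X) hB (F.sg_map_triv _ _) (by omega) l d).comp
      ((Bij.of_isIso _ ((sH ι p).map (ahIso (asIso (cdsc a.γ k))).hom)).comp
        (Kl.bij_ks.1 (bijK C (hZ d (by omega)) l)))
  · exact V.Surj.van (.of_bijective (bijK_left C F.nf0_RM (hZ d (by omega)) l))
      ((van_cb C h3 hP hB (sub_zero d ▸ (sh_one.1 hs).2) (by omega) k3 l).of_iso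
        ((kP ι p).mapIso (α_ _ _ _ ≪≫ whiskerLeftIso _ (ahIso (asIso (cdsc a.γ k))))))

/-- **The base level.** -/
theorem UN.base (hP : P + 2 ≤ p) (hA : NF A (0, ((1 : ℕ) : ℤ)) 0) (x : A ⟶ 𝟙_ MM)
    (e : (sE p).obj A ≅ (sE p).obj (rp (0, ((1 : ℕ) : ℤ))))
    (hx : (sE p).map x = p • (e.hom ≫ (sE p).map (t1 1))) :
    ∃ (a : NZ (SM ι) (CommMon.trivial MM)) (A' : MM) (u : A' ⟶ A) (χ : A' ⊗ CI MM ⟶ a.N.X),
      NF A' (0, ((1 : ℕ) : ℤ)) 0 ∧ IsIso ((sE p).map u) ∧ IsAttach a.β (u ≫ x) χ ∧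
        UN p P a (one 0 1) := by
  have := Fintype.ofFinite ι
  obtain ⟨τ, hτ⟩ := C.exists_tau
  have h0 : kφ p ((uL (SM ι)).map x ≫ η (uL (SM ι))) =
      ((kT ι p).map e.hom ≫ trf τ) ≫ (kP ι p).map (fd ι) := by
    refine (kf_map _ _ _ _ _).trans ?_
    rw [← (isOpNat_uPr (SM ι)).unit, kf_comp, hx, Category.assoc, trf_fd h3 hτ,
      Functor.map_nsmul, Functor.map_comp, Preadditive.nsmul_comp, Preadditive.comp_nsmul,
      Category.assoc, tA, Functor.map_comp]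
    exact congrArg (fun y => p • (_ ≫ y)) (congrArg₂ (· ≫ ·) (congrArg _ (tau_st _ _ _ _))
      ((congrArg (· ≫ _) (kφ_prS _)).trans (Category.id_comp _)))
  obtain ⟨Y, e₀, z, j, h1, h2, h4, h5, h6⟩ := exists_fat' (D := DH ι p)
    (fun X => PosT X.V 1) (fun _ => posT_UH) posT_I posT_po (posT_uL (hA.posT le_rfl))
    (Z.supp_RT _ |>.mono fun _ h => h.2) (Kl.un ((kT ι p).map e.hom ≫ trf τ)) (fd ι) _
    ((congrArg Kl.un h0).trans (Kl.un_comp_ks _ _))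
  have w : coneBase _ ≫ nul ι = j ≫ z ≫ MonObj.one := by rw [coneBase_nul, reassoc_of% h2]
  obtain ⟨b, χ, h7, h8⟩ := exists_bot (e := stb (De p) (e₀ ≫ ci j)) (x := (De p).t A ≫ x)
    (y := tt (lamU _ (De p)) _ ≫ cdesc _ _ w) (Q := fun B b => PosT B.X 0 → Gd p P (one 0 1) B b) (by
      rw [← Category.assoc (stb _ _), stb_tt, Category.assoc, Category.assoc, ci_cdesc,
        ← Category.assoc e₀, h1, Functor.map_comp, Category.assoc, Category.assoc])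
    fun _ _ _ _ s _ _ => Gd.base C h3 hτ hP hA e h2 h1 (Kl.hom_ext (h5.trans
      ((Kl.un_comp_ks _ _).symm.trans (congrArg Kl.un (Category.assoc _ _ _))))) h6
      (ck_cdesc _ _ _ w) (ci_cdesc _ _ _ w) s
  exact ⟨b, _, (De p).t A, χ, .U_tensor hA.nf0, inferInstance, h7, h8⟩

end Vale.Agent.P257.G
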