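import Vale.Agent.P257.W.Lift
import Vale.Agent.P257.G.Cnt

/-!
# P257, block G: the lifting lemmas, with the weights of the new cells in the cone
-/

open CategoryTheory MonoidalCategory Limits

namespace Vale.Agent.P257.G

open Vale.Agent.P251.G Vale.Agent.P251.H Vale.Agent.P251.H.StabInput
open Vale.Agent.P257.A Vale.Agent.P257.T Vale.Agent.P257.W Vale.Agent.P257.M
open Vale.Agent.P257.K Vale.Agent.P257.K.SC Vale.Agent.P257.C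

variable {p lam i : ℕ} {T0 A T R : CommMon MM} {sp0 : A ⟶ T0} {tc : TC (okT p lam) T0 i T}
    {sp : R ⟶ T} {a : Lam} {J : ℤ} {t : ℕ}

theorem good_ext {A' : CommMon MM} (h : M.Good A) {f : A ⟶ A'} {n : ℕ} (k : Ext (Nu p) n f) :
    M.Good A' :=
  k.induction (fun _ C => M.Good C) (fun _ _ l => l) (fun _ _ _ e l => l.of_iso e)
    (fun _ _ _ s ⟨_, _, l, _⟩ m => m.attach s.att l) (k := 0) h

theorem LL_of (h0 : M.Good T0) {c : RC A sp0 tc R sp} (hA : M.Good A) (hq : a ∈ Cn) (hl : 1 ≤ ell a)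
    (hs : sz a ≤ 0) (hd : DD p a ≤ J + 1) {n : ℕ}
    {z : (cE p).obj (J, (a, (t : ℤ))) ⟶ (sE p).obj (cone (ah sp))} (b : Bc c)
    (z₀ : (cE p).obj (J, (a, (t : ℤ))) ⟶ (sE p).obj (cone (ah b.sp0')))
    (hb : Ext (Nu p) n b.f)
    (hz : z₀ ≫ (sE p).map (kup b.c'.i0 tc.i0 b.c'.i0_sp) = z ≫ (sE p).map (kmap b.g b.hg)) :
    ∃ b : Bc c, Ext (Nu p) (n + 1) b.f ∧ z ≫ (sE p).map (kmap b.g b.hg) = 0 := by
  obtain ⟨X, o, ζ, h, ε, hX, rfl⟩ := kill0 (good_ext hA hb).le0 h0.le0 (ah b.sp0') z₀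
  obtain ⟨A', j, χ, att⟩ := exists_isAttach o
  obtain ⟨sq, h1, h2⟩ := att.desc b.sp0' ζ h
  obtain ⟨R', sq', c', g, hg, po⟩ := b.c'.bc j h1
  refine ⟨b.comp ⟨A', j, sq, h1, R', sq', c', g, hg, po⟩,
    hb.step ⟨X, o, j, χ, att⟩ ⟨a, _, hX, hq, hl, .inr ⟨hs, by omega⟩⟩, ?_⟩
  change z ≫ (sE p).map (kmap (b.g ≫ g) _) = 0
  rw [← kmap_comp _ b.hg _ hg, Functor.map_comp, ← reassoc_of% hz, ← Functor.map_comp,
    kup_kmap _ _ _ c'.i0 c'.i0_sp j h1 g hg po.w, ← Functor.map_comp, Category.assoc,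
    ← Category.assoc (rel _ _ _ _), Functor.map_comp, Functor.map_comp,
    st_null (rel_kmap_null j h1 h att.w h2), zero_comp, comp_zero, comp_zero]

theorem LL0 (hp : p.Prime) (hlam : 1 ≤ lam) (h0 : M.Good T0) (c : RC A sp0 tc R sp) (hA : M.Good A)
    (h1 : Wt lam i ≤ t) (h2 : t < p) (hq : Q i a) (hl : 2 ^ i ≤ ell a) (hs : sz a ≤ 1) (hd : DD p a ≤ J + 1)
    (z : (cE p).obj (J, (a, (t : ℤ))) ⟶ (sE p).obj (cone (ah sp))) :
    ∃ (b : Bc c) (z₀ : (cE p).obj (J, (a, (t : ℤ))) ⟶ (sE p).obj (cone (ah b.sp0'))),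
      Ext (Nu p) (2 ^ i - 1) b.f ∧
      z₀ ≫ (sE p).map (kup b.c'.i0 tc.i0 b.c'.i0_sp) = z ≫ (sE p).map (kmap b.g b.hg) := by
  induction tc generalizing A R a J t with
  | nil =>
    cases c
    exact ⟨Bc.id _, z, .iso _ (𝟙 _), rfl⟩
  | @cons i T T' tc s hk ih =>
    cases c with
    | cons c _ _ r =>
    rw [Wt_succ] at h1
    rw [pow_succ] at hl
    have hpos : (0 : ℤ) < 2 ^ i := by positivity
    have hR := c.posT hA.pos
    have hT := tc.posT h0.pos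
    obtain ⟨z₂, k₂⟩ := r.bdry (L.scLoc (De p)) (suspIso p (J - 1) _ (sub_add_cancel J 1))
      (bij_c1_ok hp hlam hk r.att hR h2 _) (bij_c1_ok hp hlam hk s.att hT h2 _)
      (bij_c1_ok hp hlam hk r.att hR h2 _) (bij_c1_ok hp hlam hk s.att hT h2 _) z
    obtain ⟨z', k'⟩ := desusp_ok hk (by omega) z₂
    have hl' : 2 ^ i ≤ ell (a - ee i) := by rw [map_sub, ell_ee]; omega
    have hs' : sz (a - ee i) ≤ 0 := by rw [map_sub, sz_ee]; omega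
    have hd' : DD p (a - ee i) ≤ J - dd p i + 1 := by rw [map_sub, DD_ee]; omega
    obtain ⟨b, z₀, e, k⟩ := ih c hA (by omega) (by omega) hq.sub hl' (by omega) hd' z'
    obtain ⟨b₁, e₁, k₁⟩ := LL_of h0 hA hq.sub.mem (by omega) hs' hd' b z₀ e k
    obtain ⟨Q₁, sq, r', g', hv, hχ, hg', po⟩ := r.bc b₁.g b₁.hg
    obtain ⟨z₃, k₃⟩ := k₂ r' b₁.g b₁.hg g' hg' hv hχ po.w ((k' _).1 k₁)
    obtain ⟨b₂, z₄, e₂, k₄⟩ := ih b₁.c' (good_ext hA e₁) (by omega) h2 hq.pred (by omega) hs hd z₃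
    obtain ⟨Q', sq', r'', g'', -, -, hg'', po'⟩ := r'.bc b₂.g b₂.hg
    refine ⟨(b₁.comp b₂).cons hk r r'' (g' ≫ g'') (by rw [Category.assoc, hg'', hg'])
      (po.paste_vert po'), z₄, (e₁.trans e₂).mono ?_, ?_⟩
    · have := Nat.one_le_two_pow (n := i)
      rw [pow_succ]
      omega
    · change z₄ ≫ (sE p).map (kup (b₂.c'.i0 ≫ r''.i) (tc.i0 ≫ s.i) _) =
        z ≫ (sE p).map (kmap (g' ≫ g'') _)
      rw [← kup_comp _ _ b₂.c'.i0_sp _ _ r''.hi, ← kmap_comp _ hg' _ hg'', Functor.map_comp,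
        Functor.map_comp, reassoc_of% k₄, ← reassoc_of% k₃, ← Functor.map_comp,
        ← Functor.map_comp, kup_kmap _ _ _ r''.i r''.hi b₂.g b₂.hg g'' hg'' po'.w]

theorem LL (hp : p.Prime) (hlam : 1 ≤ lam) (h0 : M.Good T0) (c : RC A sp0 tc R sp) (hA : M.Good A)
    (h1 : Wt lam i ≤ t) (h2 : t < p) (hq : Q i a) (hl : 2 ^ i ≤ ell a) (hs : sz a ≤ 0) (hd : DD p a ≤ J + 1)
    (z : (cE p).obj (J, (a, (t : ℤ))) ⟶ (sE p).obj (cone (ah sp))) :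
    ∃ b : Bc c, Ext (Nu p) (2 ^ i) b.f ∧ z ≫ (sE p).map (kmap b.g b.hg) = 0 := by
  obtain ⟨b, z₀, e, k⟩ := LL0 hp hlam h0 c hA h1 h2 hq hl (by omega) hd z
  have := LL_of h0 hA hq.mem (le_trans (one_le_pow₀ one_le_two) hl) hs hd b z₀ e k
  rwa [Nat.sub_add_cancel Nat.one_le_two_pow] at this

/-- **LIFT** -/
theorem LLP (hp : p.Prime) (hlam : 2 ≤ lam) (h0 : M.Good T0) (c : RC A sp0 tc R sp) (hA : M.Good A)
    (h2 : lam ^ i < p)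
    (y : (cE p).obj (dd p i - 1, (ee i, ((lam ^ i : ℕ) : ℤ))) ⟶ (sE p).obj T.X) :
    ∃ (b : Bc c) (T' B' R₁ : CommMon MM) (s : TStep T T') (sp' : B' ⟶ T') (r : RStep s b.sp' sp')
      (g₁ : R ⟶ R₁) (g₂ : R₁ ⟶ B') (X : MM) (x : cone (tX X (lam ^ i)) ⟶ R₁.X)
      (χ : cone (tX X (lam ^ i)) ⊗ CI MM ⟶ B'.X)
      (ε : (sE p).obj s.X ≅ (cE p).obj (dd p i - 1, (ee i, ((lam ^ i : ℕ) : ℤ)))),
      M.Good b.A' ∧ okT p lam i s.X ∧ (sE p).map s.v = ε.hom ≫ y ∧ g₁ ≫ g₂ = b.g ≫ r.i ∧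
      Ext (Nu p) (2 ^ i - 1) g₁ ∧ NF X (ee i, 0) (dd p i - 2) ∧ IsAttach g₂ x χ := by
  obtain ⟨b, z₀, e, k⟩ := LL0 hp (by omega) h0 c hA (Wt_lt hlam i).le h2 (ee_sub_on i) (ell_ee i).ge
    (sz_ee i).le (by rw [DD_ee, sub_add_cancel]) (y ≫ (sE p).map (ci (ah sp)))
  obtain ⟨X, o, ζ, h, ε, hX, rfl⟩ := kill0 (good_ext hA e).le0 h0.le0 (ah b.sp0') z₀
  rw [Category.assoc, Category.assoc, ← Functor.map_comp, ← Functor.map_comp, ci_kmap,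
    whiskerRight_rel, kup, rel_coneMap, ← Iso.eq_inv_comp, ← Category.assoc ε.inv] at k
  obtain ⟨X', u, ψ, hX', hu, hψ, hv⟩ := exists_glue_of_rel (L.scLoc (De p))
    (Q := fun X => NF X (ee i, 0) (dd p i - 1 - 1)) ⟨fun n h => h.pw n⟩ hX _ _ _ _ _ k
  obtain ⟨A', j, ν, att⟩ := exists_isAttach (u ≫ o)
  obtain ⟨sq, h3, h4⟩ := att.desc b.sp0' (u ▷ CI MM ≫ ζ) (by
    rw [coneBase_naturality_assoc, h, Category.assoc])
  obtain ⟨R', sq', c', g, hg, po⟩ := b.c'.bc j h3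
  have att' := att.of_isPushout po.flip
  have hψ' : coneBase _ ≫ ψ = tX X' (lam ^ i) ≫ (u ≫ o) ≫ ah b.c'.i0 := by
    rw [hψ, Category.assoc, Category.assoc, reassoc_of% tX_nat]
  obtain ⟨T', iT, χT, attT⟩ := exists_isAttach (pairV _ hψ' att'.w ≫ ah sq')
  obtain ⟨B', iB, χB, attB⟩ := exists_isAttach (pairV _ hψ' att'.w)
  obtain ⟨sp', h5, h6⟩ := attB.desc (sq' ≫ iT) χT (by rw [attT.w, ah_comp, Category.assoc])
  obtain ⟨χ, hχ⟩ := isAtt_pair _ hψ' att' attB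
  have : IsIso ((sE p).map ((u ▷ rp (0, ((lam ^ i : ℕ) : ℤ))) ▷ S MM)) := by
    rw [st_whiskerRight, st_whiskerRight]
    infer_instance
  refine ⟨b.comp ⟨A', j, sq, h3, R', sq', c', g, hg, po⟩, T', B', b.R', ⟨_, _, iT, χT, attT⟩, sp',
    ⟨_, iB, χB, attB, rfl, h5, h6⟩, b.g, g ≫ iB, X', _, χ,
    asIso ((sE p).map ((u ▷ rp (0, ((lam ^ i : ℕ) : ℤ))) ▷ S MM)) ≪≫ ε.symm,
    (good_ext hA e).attach att hX', ?_, ?_, (Category.assoc _ _ _).symm, b.ext_g e,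
    by rwa [sub_sub] at hX', hχ⟩
  · have := (hX'.tensor_t ((lam ^ i : ℕ) : ℤ)).tensor_S
    rwa [sub_add_cancel] at this
  · have e1 : (ψ ≫ ah g) ≫ ah sq' = ψ ≫ ah b.sp' := by rw [Category.assoc, ← ah_comp, hg]
    have e2 : (tX X' (lam ^ i) ▷ CI MM ≫ ν ≫ ah c'.i0) ≫ ah sq' =
        (u ▷ _) ▷ CI MM ≫ (tX X (lam ^ i) ▷ CI MM ≫ ζ) ≫ ah tc.i0 := by
      rw [Category.assoc, Category.assoc, ← ah_comp, c'.i0_sp, ah_comp, reassoc_of% h4,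
        Category.assoc, ← comp_whiskerRight_assoc, ← comp_whiskerRight_assoc, tX_nat]
    change (sE p).map (pairV _ hψ' att'.w ≫ ah sq') = ((sE p).map _ ≫ ε.inv) ≫ y
    rw [pairV, glue_comp, glue_congr _ e1 e2, hv, Category.assoc]

/-- **PULL** -/
theorem PULL (hp : p.Prime) (hlam : 1 ≤ lam) (h0 : M.Good T0) (c : RC A sp0 tc R sp) (hA : M.Good A)
    (h1 : Wt lam i ≤ t) (h2 : t < p) (hq : Q i a) (hl : 2 ^ i ≤ ell a) (hs : sz a ≤ 1) (hd : DD p a ≤ J + 2)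
    (onto : tc.All fun _ T T' _ s => ∀ y : (cE p).obj (J, (a, (t : ℤ))) ⟶ (sE p).obj T'.X,
      ∃ y' : (cE p).obj (J, (a, (t : ℤ))) ⟶ (sE p).obj T.X, y' ≫ (sE p).map (ah s.i) = y)
    (x : (cE p).obj (J, (a, (t : ℤ))) ⟶ (sE p).obj R.X) :
    ∃ (b : Bc c) (X : MM) (ξ : X ⟶ b.A'.X)
      (ε : (sE p).obj (X ⊗ rp (0, (t : ℤ))) ≅ (cE p).obj (J, (a, (t : ℤ)))),
      Ext (Nu p) (2 ^ i - 1) b.f ∧ NF X (a, 0) J ∧
      (sE p).map (tX X t ≫ ξ ≫ ah b.c'.i0) = ε.hom ≫ x ≫ (sE p).map (ah b.g) := by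
  induction tc generalizing A R with
  | nil =>
    cases c
    obtain ⟨X, ξ, ε, hX, h⟩ := pull0 hA.le0 x
    refine ⟨Bc.id _, X, ξ, ε, .iso _ (𝟙 _), hX, ?_⟩
    change (sE p).map (tX X t ≫ ξ ≫ 𝟙 _) = ε.hom ≫ x ≫ (sE p).map (𝟙 _)
    rw [Category.comp_id, (sE p).map_id, Category.comp_id, h]
  | @cons i T T' tc s hk ih =>
    cases c with
    | @cons _ _ _ _ R₀ _ sp₀ _ c _ _ r =>
    rw [Wt_succ] at h1
    rw [pow_succ] at hl
    have hpos : (0 : ℤ) < 2 ^ i := by positivity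
    obtain ⟨y, hy⟩ := onto.2 (x ≫ (sE p).map (ah sp))
    obtain ⟨x₂, k₁, k₂⟩ := r.bdry' (L.scLoc (De p))
      (bij_c1_ok hp hlam hk r.att (c.posT hA.pos) h2 _)
      (bij_c1_ok hp hlam hk s.att (tc.posT h0.pos) h2 _) x y hy
    obtain ⟨x', k'⟩ := desusp_ok hk (by omega) x₂
    obtain ⟨z, hz⟩ := L.TriStr.co₄ (tri_c (L.scLoc (De p)) (ah sp₀))
      ((suspIso p _ _ rfl).hom ≫ x' ▷ SS (De p)) (by
        rw [Category.assoc, ← comp_whiskerRight, (k' _).2 k₁,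
          MonoidalPreadditive.zero_whiskerRight, comp_zero])
    obtain ⟨b₁, e₁, k₃⟩ := LL hp hlam h0 c hA (by omega) (by omega) hq.sub
      (by rw [map_sub, ell_ee]; omega) (by rw [map_sub, sz_ee]; omega)
      (by rw [map_sub, DD_ee]; omega) z
    have k₄ : x' ≫ (sE p).map (ah b₁.g) = 0 := eq_zero_of_whiskerRight_S _ (by
      rw [← cancel_epi (suspIso p _ _ rfl).hom, comp_whiskerRight, ← reassoc_of% hz,
        ← st_whiskerRight, ← Functor.map_comp, ← coneMap_cq _ (𝟙 _) (f' := ah b₁.sp')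
        (by rw [← ah_comp, b₁.hg, Category.comp_id]), Functor.map_comp, comp_zero]
      exact (Category.assoc _ _ _).symm.trans ((congrArg (· ≫ _) k₃).trans zero_comp))
    obtain ⟨Q₁, sq, r', g', hv, hχ, hg', po⟩ := r.bc b₁.g b₁.hg
    obtain ⟨x₃, k₅⟩ := k₂ r' b₁.g g' hv hχ po.w ((k' _).1 k₄)
    obtain ⟨b₂, X, ξ, ε, e₂, hX, k₆⟩ := ih b₁.c' (good_ext hA e₁) (by omega) hq.pred (by omega) onto.1 x₃
    obtain ⟨Q', sq', r'', g'', -, -, hg'', po'⟩ := r'.bc b₂.g b₂.hg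
    refine ⟨(b₁.comp b₂).cons hk r r'' (g' ≫ g'') (by rw [Category.assoc, hg'', hg'])
      (po.paste_vert po'), X, ξ, ε, (e₁.trans e₂).mono ?_, hX, ?_⟩
    · have := Nat.one_le_two_pow (n := i)
      rw [pow_succ]
      omega
    · change (sE p).map (tX X t ≫ ξ ≫ ah b₂.c'.i0 ≫ ah r''.i) =
        ε.hom ≫ x ≫ (sE p).map (ah g' ≫ ah g'')
      rw [← Category.assoc ξ, ← Category.assoc (tX X t), Functor.map_comp, k₆, Functor.map_comp,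
        ← reassoc_of% k₅, Category.assoc, Category.assoc, ← Functor.map_comp, ← Functor.map_comp,
        ← ah_comp, ← ah_comp, po'.w]

end Vale.Agent.P257.G
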