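import Vale.Agent.P257.W.Muw
import Vale.Agent.P257.G.Lift

/-!
# P257, block G: the chains with coefficients
-/

open CategoryTheory MonoidalCategory Limits Pointwise

namespace Vale.Agent.P257.G

open Vale.Agent.P251.H Vale.Agent.P251.H.StabInput
open K M D D.EF C A T L W

universe w

variable {p lam m : ℕ}

variable {C : CommMon MM} [MonObj ((sE p).obj C.X)] {A₀ : Type w} [CommRing A₀] {G : RegSeq p A₀}
  {Q : Coef (SC.sph (De p)) ((sE p).obj C.X) G} {T T' A R B : CommMon MM}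

theorem exists_muw (hp : p.Prime) (h0 : Le0 C.X) (h1 : Supp C.X {g : Gam | g.1 = 0})
    (h2 : PosT C.X 0) (hη : MonObj.one (X := (sE p).obj C.X) = (sE p).map (MonObj.one (X := C.X)))
    (hV : Q.IsV 0 ((p : ℤ) • MonObj.one (X := (sE p).obj C.X))) (hlam : 2 ≤ lam) (hw : lam ^ m < p)
    (tc : TC (okT p lam) T0 m T) (hd : tc.All (DetS Q ee (lam ^ ·))) (s : TStep T T')
    (hok : okT p lam m s.X) (hs : DetS Q ee (lam ^ ·) m T T' tc.i0 s) {sp0 : A ⟶ T0} {sp : R ⟶ T}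
    (c : RC A sp0 tc R sp) (hA : M.Good A) {sp' : B ⟶ T'} (r : RStep s sp sp') :
    ∃ (A₁ R₁ B₁ : CommMon MM) (κ : C ⟶ A₁) (σ₀ : A₁ ⟶ cten C T0) (f : A ⟶ A₁) (i : A₁ ⟶ R₁)
      (g : R ⟶ R₁) (j : R₁ ⟶ B₁) (g' : cten C B ⟶ B₁) (σ : B₁ ⟶ cten C T') (X : MM)
      (ξ : X ⟶ A₁.X) (ε : (sE p).obj (X ⊗ rp (0, ((lam ^ m : ℕ) : ℤ))) ≅ (sE p).obj s.X),
      M.Good A₁ ∧ κ ≫ σ₀ = cinl C T0 ∧ IsPushout c.i0 f g i ∧ r.i ≫ cinr C B ≫ g' = g ≫ j ∧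
      g' ≫ σ = cwl C sp' ∧ i ≫ j ≫ σ = σ₀ ≫ cwl C (tc.i0 ≫ s.i) ∧
      (∃ χ, IsAttach j (r.v ≫ ah g) χ) ∧ Ext (Nu p) (2 ^ m - 1) g' ∧
      (sE p).map (tX X (lam ^ m) ≫ ξ ≫ ah i) = ε.hom ≫ (sE p).map (r.v ≫ ah g) ∧
      IsVP Q m (ee m) ((sE p).map (ξ ≫ ah σ₀)) := by
  have hC : M.Good C := ⟨h0, h2⟩
  have ho := oddCells_okT (p := p) (lam := lam) (by omega)
  obtain ⟨e⟩ := NF.iso hok p
  obtain ⟨b, X, ξ, ε, hb, hX, k⟩ := P257.G.PULL hp (by omega) (good_cten hC ⟨le0_T0, posT_T0⟩)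
    (c.tensor C) (good_cten hC hA) (Wt_lt hlam m).le hw (ee_sub_on m) (ell_ee m).ge (sz_ee m).le
    (by rw [DD_ee]; omega) (onto_tc hp h0 h1 h2 ho tc hd _ (Wt_lt hlam m).le hw _)
    (e.inv ≫ (sE p).map (r.tensor C).v)
  obtain ⟨B₁, σ, r', g', hv, -, hσ, po⟩ := (r.tensor C).bc b.g b.hg
  have k' : (sE p).map (tX X (lam ^ m) ≫ ξ ≫ ah b.c'.i0) =
      (ε ≪≫ e.symm).hom ≫ (sE p).map (r.tensor C).v ≫ (sE p).map (ah b.g) := by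
    rw [k, Iso.trans_hom, Category.assoc, Category.assoc, Iso.symm_hom]
  have e1 : r'.v = r.v ≫ ah (cinr C R ≫ b.g) := hv.trans (Category.assoc _ _ _)
  refine ⟨b.A', b.R', B₁, cinl C A ≫ b.f, b.sp0', cinr C A ≫ b.f, b.c'.i0, cinr C R ≫ b.g, r'.i,
    g', σ, X, ξ, ε ≪≫ e.symm, good_ext (good_cten hC hA) hb, by rw [Category.assoc, b.hf, cinl_cwl],
    (isPushout_cinr C c.i0).paste_vert (c.i0_tensor C ▸ b.po), ?_, hσ, ?_, ⟨_, e1 ▸ r'.att⟩,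
    (b.ext_g hb).of_isPushout po.flip, ?_, isVP_of_pull hp h0 h1 h2 ho hη hV tc hd hs
      (Wt_lt hlam m).le hw b (r.tensor C).hv hX ξ _ k'⟩
  · rw [← cinr_cwl_assoc, Category.assoc, ← po.w]
  · rw [r'.hi, reassoc_of% b.c'.i0_sp, TC.i0_tensor, cwl_comp]
  · rw [k', ← Functor.map_comp, ah_comp, Category.assoc]

omit [MonObj ((sE p).obj C.X)] in
theorem gp_muw {P Lm : ℕ} {D : Set (Lam × ℤ)} {N : ℤ} {e : ℕ} (hp : p.Prime) (hL : Lm < p ^ 2)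
    (hC : GP (sE p) (tE p) (V.par p P Lm hp.pos) C.X w0 0) {Y B₁ Y₁ : CommMon MM}
    {u : CommMon.trivial MM ⟶ Y} (hY : UP (sE p) (tE p) (V.par p P Lm hp.pos) u D N)
    {g' : cten C B ⟶ B₁} (hg : Ext (Nu p) e g') {β : B ⟶ Y} {n : Y ⟶ Y₁} {β₁ : B₁ ⟶ Y₁}
    (po : IsPushout β (cinr C B ≫ g') n β₁) :
    GP (sE p) (tE p) (V.par p P Lm hp.pos) Y₁.X (sh w0 D) (N + e) := by
  have q := isPushout_cinr C β
  have w : β ≫ n = cinr C B ≫ g' ≫ β₁ := by rw [po.w, Category.assoc]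
  have l : IsPushout (cwl C β) g' (q.desc n (g' ≫ β₁) w) β₁ :=
    IsPushout.of_top (by rwa [q.inl_desc]) (q.inr_desc _ _ _) q
  exact ((up_ext (worldE hp) (P := P) (hp := hp.pos) hL (hg.of_isPushout l.flip)).self
    (mn_w0.sh D) (hY.cten mn_w0 hC)).mono (fun _ _ => sh_zero.2) (by rw [zero_add])

end Vale.Agent.P257.G
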