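import Vale.Agent.P257.G.Glue2
import Vale.Agent.P257.G.Muw
import Vale.Agent.P257.G.Down
import Vale.Agent.P257.G.DivS
import Vale.Agent.P257.W.Rerep
import Vale.Agent.P257.Z.Inst

/-!
# P257, block G: the class constructed in the inductive step comes from a detected class
-/

open CategoryTheory MonoidalCategory Limits Functor.LaxMonoidal Functor.OplaxMonoidal Pointwise

namespace Vale.Agent.P257.G

open Vale.Agent.P251.H Vale.Agent.P251.H.StabInput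
open K M D D.EF C A T L W
open Vale.Agent.P257.N (NZ SM kT kP kφ NIso NTw GH CX aH trivMap_comp st_cone_zero)
open Vale.Agent.P257.E (triv JA)
open Vale.Agent.P257.F (DH sH RH)
open Equiv (Perm)

universe w

variable {p m : ℕ}

/-- A class of filtration degree zero which dies in `A'` is killed by a cell. -/
theorem exists_kill {A A' : CommMon MM} (σ : A ⟶ A') {g : Gam} {k : ℤ}
    (o : (cE p).obj (k, g) ⟶ (sE p).obj A.X) (h : o ≫ (sE p).map (ah σ) = 0) :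
    ∃ (A₂ : CommMon MM) (s : TStep A A₂) (σ₂ : A₂ ⟶ A'), NF s.X g k ∧ s.i ≫ σ₂ = σ ∧
      o ≫ (sE p).map (ah s.i) = 0 := by
  obtain ⟨X, x, e, hX, hx⟩ := rep1 o
  obtain ⟨X', u, χ, hX', hu, hχ⟩ := hX.null (p := p) (x := x ≫ ah σ) (by
    rw [Functor.map_comp, hx, Category.assoc, h, comp_zero])
  obtain ⟨A₂, α, ν, att⟩ := exists_isAttach (u ≫ x)
  obtain ⟨σ₂, hα, -⟩ := att.desc σ χ (by rw [hχ, Category.assoc])
  refine ⟨A₂, ⟨X', _, α, ν, att⟩, σ₂, hX', hα, ?_⟩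
  have k := st_cone_zero (De p) ν
  rwa [att.w, Functor.map_comp, Functor.map_comp, hx, Category.assoc, Category.assoc,
    Preadditive.IsIso.comp_left_eq_zero, Preadditive.IsIso.comp_left_eq_zero] at k

theorem ok_next (hp : 0 < p) : Ok p (p • ee m) (p * (dd p m - 1) + 2 * ((p : ℤ) - 1) - 1) := by
  have h : (1 : ℤ) ≤ 2 ^ m := one_le_pow₀ one_le_two
  have h' : (1 : ℤ) ≤ p := Int.ofNat_le.2 hp
  refine ⟨Cn.nsmul_mem (ee_mem m) p, by rw [ell_next]; nlinarith, .inl ?_⟩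
  rw [bd_next, dd, pow_succ]
  exact mul_le_mul_of_nonneg_left (by linarith) (Int.natCast_nonneg p)

variable {ι : Type} [Finite ι] [DecidableEq ι] [Nontrivial ι] [hp : Fact p.Prime]
  [hι : Fact (Nat.card ι = p)]
  {C : CommMon MM} [MonObj ((sE p).obj C.X)] {A₀ : Type w} [CommRing A₀] {G : RegSeq p A₀}
  {Q : Coef (SC.sph (De p)) ((sE p).obj C.X) G} {T T' A R B : CommMon MM}
  {P Lm : ℕ} {NB NN : ℤ}

/-- **Detection of the quotient of the Frobenius.** -/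
theorem det_next (h0 : Le0 C.X) (h1 : Supp C.X {g : Gam | g.1 = 0})
    (hC : GP (sE p) (tE p) (V.par p P Lm hp.out.pos) C.X w0 0)
    (hη : MonObj.one (X := (sE p).obj C.X) = (sE p).map (MonObj.one (X := C.X)))
    (hV : Q.IsV 0 ((p : ℤ) • MonObj.one (X := (sE p).obj C.X)))
    (hdet : ∀ X, NF X (ee m, 0) (dd p m - 1) →
      DetK p ι (cinl C T0) (IsVP Q m (ee m)) (IsVP Q (m + 1) (p • ee m)) X)
    (hl : 4 ≤ Nat.card ι) (hP : P < p) (hL : Lm < p ^ 2)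
    (hw : 4 * 2 ^ m ≤ P) (hb : ell (p • ee m) ≤ Lm) (hNN : 4 * 2 ^ m + NN < 2 * p)
    (tc : TC (okT p 2) T0 m T) (hd : tc.All (DetS Q ee (2 ^ ·))) (s : TStep T T')
    (hok : okT p 2 m s.X) (hs : DetS Q ee (2 ^ ·) m T T' tc.i0 s) {sp0 : A ⟶ T0} {sp : R ⟶ T}
    (c : RC A sp0 tc R sp) (hA : M.Good A) {sp' : B ⟶ T'} (r : RStep s sp sp')
    (nz : NZ (SM ι) B) (hU : UN p P nz (DS p m)) {uB : CommMon.trivial MM ⟶ B}
    (pB : UP (sE p) (tE p) (V.par p P Lm hp.out.pos) uB (DB m) NB) {uN : CommMon.trivial MM ⟶ nz.N}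
    (pN : UP (sE p) (tE p) (V.par p P Lm hp.out.pos) uN (DB m + DS p m) NN) (F : R ⟶ FrC ι 4 nz.Z)
    (hF : FrobOn hl hA.le0 c.i0 (trivMap _ (c.i0 ≫ r.i) ≫ nz.γ) F) (fold : nz.N ⟶ T')
    (hfold : nz.β ≫ fold = sp') {cc : O} {n : ℕ} (hc : Nonempty cc.El)
    (hn : (n : ℤ) = Fintype.card cc.El + (dd p m - 1))
    (e : s.X ≅ rep (⟨cc, (ee m, ((2 ^ m : ℕ) : ℤ))⟩ : JG) ⊗ tpow (S MM) n) {W : SC (DH ι p)}
    {f : (sH ι p).obj ((FrL (Perm ι) ι 4).obj s.X) ⟶ W} (ef : Eu (aH ι (DH ι p)) (n + 2) f)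
    {q : W ⟶ (sH ι p).obj nz.Z.X} (hq : f ≫ q = (sH ι p).map (frV F r.v)) {Y : EE p}
    (c' : Y ≅ (cE p).obj (dd p (m + 1) - 1, (p • ee m, ((4 * 2 ^ m : ℕ) : ℤ))))
    (t : (kT ι p).obj Y ≅ (Kl.ks _).obj W) {y : Y ⟶ (sE p).obj nz.N.X}
    (ht : (kT ι p).map y ≫ kφ p nz.φ = t.hom ≫ (Kl.ks _).map q) :
    DetV Q (m + 1) (tc.i0 ≫ s.i) (p • ee m) (4 * 2 ^ m) (y ≫ (sE p).map (ah fold)) := by
  have Cx : CX ι p := Z.ctx iG p ι
  have h3' : 3 ≤ Nat.card ι := by omega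
  have hw' : ((4 * 2 ^ m : ℕ) : ℤ) ≤ P := Int.ofNat_le.2 hw
  have hr : 2 ^ m ≤ 4 * 2 ^ m := by omega
  obtain ⟨A₁, R₁, B₁, κ, σ₀, fA, i, g, j, g', σ, X₀, ξ, ε, hA₁, hκ, po, hj, hσ, hφ, ⟨χ, att⟩, ex,
    hξ, hvp⟩ := P257.G.exists_muw hp.out h0 h1 hC.posT hη hV le_rfl (by omega) tc hd s hok hs c hA r
  obtain ⟨a₁, k₁, po₁⟩ := hU.ex (cinr C B ≫ g')
  have gB₁ := P257.G.gp_muw hp.out hL hC pB ex (β := 𝟙 B) (β₁ := 𝟙 B₁) (n := cinr C B ≫ g')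
    (IsPushout.of_horiz_isIso ⟨by rw [Category.id_comp, Category.comp_id]⟩)
  have gN₁ := P257.G.gp_muw hp.out hL hC pN ex po₁.1
  have G₁ := (hU.bc po₁).gd gB₁.posT
  obtain ⟨F₁, hF₁, hF'⟩ := hF.bc hA₁.le0 po (z := k₁.z) (γ' := trivMap _ (i ≫ j) ≫ a₁.γ) (by
    rw [Category.assoc, k₁.hγ, ← Category.assoc, ← Category.assoc, ← trivMap_comp, ← trivMap_comp,
      Category.assoc, hj, reassoc_of% po.w])
  obtain ⟨X', ξ', δ, u, U, j', e', d, f', hX', hδ, -, hu, ed, ef', hU', hf'⟩ :=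
    exists_rerep hF₁ hc hn e (r.v ≫ ah g) ξ ε hξ
  have k0 : ((2 ^ m - 1 : ℕ) : ℤ) = 2 ^ m - 1 := by
    rw [Nat.cast_sub Nat.one_le_two_pow, Nat.cast_pow, Nat.cast_two, Nat.cast_one]
  have k1 : (p : ℤ) * (dd p m - 1) = 2 * p ^ (m + 1) - 2 * p := by
    rw [dd]
    ring
  obtain ⟨o, o1, o2⟩ := P257.G.glue3 Cx h3' hκ (j := i ≫ j)
    hX' (even_dd p m) (hdet _ hX') (ξ := ξ') (by
      rw [Functor.map_comp, hδ, Category.assoc, ← Functor.map_comp]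
      exact hvp.iso δ) hr (by
      rw [ah_comp, ← Category.assoc ξ', ← Category.assoc, Functor.map_comp, hu, ← Functor.map_comp,
        Category.assoc, ← att.w, Functor.map_comp, st_cone_zero, comp_zero])
    ed hU' ((ef'.comp ef).cast (add_assoc _ _ _).symm) (q := q ≫ (sH ι p).map (ah k₁.z)) (by
      rw [Category.assoc, reassoc_of% hq, ← Functor.map_comp, ← frV_nat hF', hf'])
    (G₁.iso _ _ hw') (G₁.tw' gB₁ (DS_bx p m) hb hw' (win p m))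
    (fun l k => van_next gN₁ hb hw (by omega)) c' t (kφ_push k₁ ht)
  have tf : ∀ l, Odd l → ∀ x : (cE p).obj (l, (p • ee m, 0)) ⟶ (sE p).obj (cten C T0).X,
      p • x = 0 → x = 0 := by
    rintro _ ⟨l, rfl⟩ x hx
    exact tf_odd Q h0 h1 (r := 0) l x ((natCast_zsmul _ _).trans hx)
  obtain ⟨A₂, s₂, σ₂, hX₂, hα, ho⟩ := exists_kill σ₀ o (tf _ ⟨p ^ (m + 1) - 2, by rw [k1]; ring⟩ _
    (by rw [← Preadditive.nsmul_comp, o1, zero_comp]))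
  obtain ⟨B₂, σ', j₂, po₂, ex₂⟩ :=
    (Ext.single (P := Nu p) s₂ ⟨_, _, hX₂, ok_next hp.out.pos⟩).exists_isPushout (i ≫ j)
  obtain ⟨a₂, k₂, pk₂⟩ := (hU.bc po₁).ex σ'
  have gB₂ := ((up_ext (worldE hp.out) (hp := hp.out.pos) hL ex₂).self (mn_w0.sh _) gB₁).mono
    (fun _ _ => sh_zero.2) le_rfl
  have G₂ := ((hU.bc po₁).bc pk₂).gd gB₂.posT
  obtain ⟨Y', x, ε', hx, hy⟩ := o2 k₂ hα po₂.w.symm (G₂.iso _ _ hw')
    (G₂.tw' gB₂ (DS_bx p m) hb hw' (win p m)) ho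
  have w₂ : s₂.i ≫ σ₂ ≫ cwl C (tc.i0 ≫ s.i) = (i ≫ j) ≫ σ := by
    rw [reassoc_of% hα, Category.assoc, hφ]
  have po₃ := (po₁.comp pk₂).1
  have w : nz.β ≫ fold ≫ cinr C T' = ((cinr C B ≫ g') ≫ σ') ≫ po₂.desc _ _ w₂ := by
    rw [reassoc_of% hfold, Category.assoc, po₂.inr_desc, Category.assoc, hσ, cinr_cwl]
  obtain ⟨ψ, e1, e2⟩ : ∃ ψ : a₂.N ⟶ cten C T', k₁.n ≫ k₂.n ≫ ψ = fold ≫ cinr C T' ∧
      j₂ ≫ a₂.β ≫ ψ = σ₂ ≫ cwl C (tc.i0 ≫ s.i) :=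
    ⟨po₃.desc _ _ w, (Category.assoc _ _ _).symm.trans (po₃.inl_desc _ _ w),
      (congrArg _ (po₃.inr_desc _ _ w)).trans (po₂.inl_desc _ _ _)⟩
  refine detV_of_isVP hη c' hx ε' ?_
  have k2 := congrArg (· ≫ (sE p).map (ah ψ)) hy
  beta_reduce at k2
  simp only [Category.assoc, ← Functor.map_comp, ← ah_comp] at k2 ⊢
  rwa [e2, e1] at k2

/-- **GLUE** -/
theorem glue {p n : ℕ} [hp : Fact p.Prime] {hl : 4 ≤ Nat.card (Fin p)} {A₀ : Type}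
    [CommRing A₀] {G : RegSeq p A₀} {Q : Coef (SC.sph (De p)) ((sE p).obj MG.X) G}
    (h : Num p n) (D : IsMU Q) : Glue (Fin p) n hl Q := by
  intro j hj σ hd c m hc hm e V f ef g hg Y c' t y ht
  have : Nontrivial (Fin p) := Fin.nontrivial_iff_two_le.2 hp.out.two_le
  have h1 := four_mul_le hj
  have h2 := h.lt
  have h7 : 4 * 2 ^ j + 2 ^ (j + 1) < 2 * p := by omega
  have h8 : ((4 * 2 ^ j : ℕ) : ℤ) < p := Int.ofNat_lt.2 (by omega)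
  have ho := oddCells_okT (p := p) one_le_two
  exact detV_down (r := 2 ^ (j + 1)) (f := 2 ^ (j + 1)) (by omega) c' (det_next le0_MG wt_MG
    (gp_zero (D.prof _ _ _) posT_MG wt_MG) (one_MG p) D.isV
    (fun X k => D.det j _ X (by rwa [show 2 * ((p : ℤ) ^ j - 1) = dd p j - 1 by rw [dd]; ring]))
    hl h2 h.lm_lt h1 (ell_le p hj.le) (by exact_mod_cast h7) σ.tc hd.1 σ.s σ.hs hd.2 σ.c σ.good σ.r
    σ.nz σ.un σ.upB σ.upN σ.Fr σ.hFr σ.fold σ.hfold hc hm e ef hg c' t ht)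
    ((worldE hp.out).stab_tc_le0 h8 ho σ.tc1 posT_T0 le0_T0 _)
    ((worldE hp.out).stab_tc_le0_left h8 ho σ.tc1 posT_MG le0_MG posT_T0 le0_T0 _)
    (Int.ofNat_le.2 (Wt_lt le_rfl _).le)

end Vale.Agent.P257.G
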