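import Vale.Agent.P257.W.Glue1

/-!
# P257, block G: the obstruction to the twisted division

* `tw1` : the twisted division is possible as soon as one `p`-torsion class is killed;
* `glue1` : comparison of two divisions by the Euler class.
-/

open CategoryTheory MonoidalCategory Limits

namespace Vale.Agent.P257.G

open Vale.Agent.P257.E Vale.Agent.P257.C Vale.Agent.P257.W Vale.Agent.P257.Z
open Vale.Agent.P251.G (LC)
open Vale.Agent.P251.G.LC (RR)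
open Vale.Agent.P251.M (IsInv)
open Equiv (Perm swap)

universe v u v' u'

set_option linter.unusedSectionVars false

variable {ι : Type} [Finite ι] [DecidableEq ι] {H : Type u} [Category.{v} H] [Preadditive H]
  [MonoidalCategory H] [SymmetricCategory H] [MonoidalPreadditive H] {E : Type u'}
  [Category.{v'} E] [Preadditive E] [MonoidalCategory E] [SymmetricCategory E]
  [MonoidalPreadditive E] {Γ : Type} [AddCommGroup Γ]
  {SH : Action LC (Perm ι) ⥤ H} [SH.Braided] {TE : LC ⥤ E} [TE.Braided]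
  {R : H ⥤ Action E (Perm ι)} [R.Braided] {c : Cells E (ℤ × Γ)} (C : Ctx SH TE R)
  {V W X X' Y Z : H} {e : ℤˣ}

theorem co_post (i : ι) (x : Y ⟶ X ⊗ SH.obj (DA ι)) (φ : X ⟶ X') :
    C.co i (x ≫ φ ▷ _) = C.co i x ≫ (R.map φ).hom := by
  have k : C.rt (x ≫ φ ▷ _) = C.rt x ≫ R.map φ ▷ _ := by
    rw [Ctx.rt, Ctx.rt, R.map_comp, Category.assoc, Category.assoc,
      (Iso.eq_inv_comp _).2 (C.cl_left φ _), Category.assoc, Category.assoc, Iso.hom_inv_id,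
      Category.comp_id]
  rw [Ctx.co, Ctx.co, k, atCo, atCo, Action.comp_hom, Action.whiskerRight_hom, Category.assoc,
    Category.assoc, Category.assoc, ← rightUnitor_naturality, ← whisker_exchange_assoc]

theorem shuf_left (φ : X ⟶ X') (S A : H) :
    (φ ▷ A) ▷ S ≫ (shuf X' S A).inv = (shuf X S A).inv ≫ (φ ▷ S) ▷ A := by
  rw [Iso.comp_inv_eq, Category.assoc, Iso.eq_inv_comp]
  simp only [shuf, Iso.trans_hom, whiskerLeftIso_hom, Iso.symm_hom, Category.assoc]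
  rw [associator_naturality_left_assoc, ← whisker_exchange_assoc, associator_inv_naturality_left]

variable [Nontrivial ι] [R.Additive] [IsInv (sS SH)] [IsInv (SH.obj (VA ι))] [IsInv (TE.obj RR)]
  (h3 : 3 ≤ Nat.card ι)
include C h3

theorem tw1 (hW : Sg e (R.obj W)) (hX : Sg (-e) (R.obj X)) (x : W ⟶ X) :
    ∃ o : (R.obj (W ⊗ SH.obj (RA ι))).V ⟶ (R.obj (X ⊗ sS SH)).V, Nat.card ι • o = 0 ∧
      ∀ {X' : H} (φ : X ⟶ X'), Sg (-e) (R.obj X') → o ≫ (R.map (φ ▷ sS SH)).hom = 0 →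
        ∃ y, am (eul SH) W ≫ y = x ≫ φ := by
  have := Fintype.ofFinite ι
  obtain ⟨i⟩ : Nonempty ι := inferInstance
  obtain ⟨q, t⟩ := C.trc (pd ι)
  obtain ⟨z, hz⟩ := (C.bij_fld h3 hW hX).2 (W ◁ aug SH ≫ (ρ_ W).hom ≫ x ≫ (ρ_ X).inv)
  have hz' : z ≫ X ◁ fld SH = W ◁ aug SH ≫ (ρ_ W).hom ≫ x ≫ (ρ_ X).inv := hz
  obtain ⟨u, hu⟩ : ∃ u, u = W ◁ q ≫ (α_ _ _ _).inv ≫ z ▷ sS SH ≫ (shuf X _ _).inv := ⟨_, rfl⟩
  have hY : Sg (-e) (R.obj (W ⊗ SH.obj (RA ι))) := by simpa using Ctx.sg_tensor hW C.sg_R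
  have k : ∀ l, C.co l u = C.co i u := fun l => by
    have := C.co_act (swap i l) i u
    rwa [Equiv.swap_apply_left, ← hY.comm (C.sg_shift hX), cancel_epi] at this
  have hx : u ≫ _ ◁ fld SH = 0 := by
    rw [hu, Category.assoc, Category.assoc, Category.assoc, shuf_inv_nat,
      ← comp_whiskerRight_assoc, hz', comp_whiskerRight, Category.assoc,
      ← associator_inv_naturality_middle_assoc, ← MonoidalCategory.whiskerLeft_comp_assoc, aug,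
      t.z₃, MonoidalPreadditive.whiskerLeft_zero, zero_comp]
  refine ⟨C.co i u, ?_, fun {X'} φ hX' h0 => C.exists_div ?_⟩
  · have := C.sum_co u
    rwa [Finset.sum_congr rfl fun l _ => k l, Finset.sum_const, reassoc_of% hx, zero_comp,
      R.map_zero, Finset.card_univ, ← Nat.card_eq_fintype_card] at this
  · have h1 : W ◁ q ≫ (α_ _ _ _).inv ≫ (z ≫ φ ▷ _) ▷ sS SH ≫ (shuf X' _ _).inv = 0 := by
      rw [comp_whiskerRight, Category.assoc, shuf_left, ← reassoc_of% hu]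
      exact C.eq_zero_of_co fun l => by rw [co_post, k, h0]
    obtain ⟨w, hw⟩ := t.co₃ W _ _ h1
    have h2 : Zr (W ⊗ 𝟙_ H ⊗ sS SH) ((X' ⊗ sS SH) ⊗ SH.obj (DA ι)) :=
      (C.zr_D h3 (C.sg_shift hW) (C.sg_shift hX')).of_iso (whiskerLeftIso W (λ_ _).symm)
        (Iso.refl _)
    rw [h2 w, comp_zero, eq_comm, Preadditive.IsIso.comp_left_eq_zero,
      Preadditive.IsIso.comp_right_eq_zero] at hw
    have h4 := congrArg (· ≫ X' ◁ fld SH ≫ (ρ_ X').hom) (whiskerRight_eq_zero hw)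
    beta_reduce at h4
    rwa [Category.assoc, ← whisker_exchange_assoc, reassoc_of% hz', rightUnitor_naturality,
      Iso.inv_hom_id_assoc, zero_comp] at h4

variable (s : TE.obj RR ≅ c.obj (1, 0)) {l L : ℤ} {g : Γ} {n : ℕ} {f : V ⟶ W}
include s

/-- **The comparison of the quotients.** -/
theorem glue1 {P F₁ Z₁ : H} {g₁ g₂ : Γ} (hY : GC R c 1 (L, g₁) Y)
    (hP : GC R c 1 (0, g₂) P) (hg : g₁ + g₂ = g) (t : P ⟶ 𝟙_ H) (h₁ : Sg 1 (R.obj F₁))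
    {γ₁ : F₁ ⟶ Z₁} {N D : Y ⟶ F₁} (hD : (R.map N).hom = (R.map D).hom)
    (h0 : mt D t ≫ γ₁ = 0) {d : V ⟶ Y ⊗ P} (hd : Eu (eul SH) n d) (hV : GC R c e (l, g) V)
    (hl : l + n * ((Nat.card ι : ℤ) - 1) ≤ L) (hf : Eu (eul SH) (n + 2) f) {q : W ⟶ Z₁}
    (hq : f ≫ q = d ≫ mt N t ≫ γ₁) (U₁ : ∀ e' l', l' ≤ L → UQ SH R c Z₁ e' (l', g)) :
    ∃ o : c.obj (L + 2 * ((Nat.card ι : ℤ) - 1), g₁) ⟶ (R.obj (F₁ ⊗ sS SH)).V,
      Nat.card ι • o = 0 ∧ ∀ {F₂ Z₂ : H} {γ₂ : F₂ ⟶ Z₂} {σ : F₁ ⟶ F₂} {z : Z₁ ⟶ Z₂},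
        Sg 1 (R.obj F₂) → γ₁ ≫ z = σ ≫ γ₂ → UQ SH R c Z₂ (-1) (L + ((Nat.card ι : ℤ) - 1), g) →
        o ≫ (R.map (σ ▷ sS SH)).hom = 0 → ∃ (h : (Y ⊗ SH.obj (RA ι)) ⊗ SH.obj (RA ι) ⟶ F₂)
          (ε : W ≅ ((Y ⊗ SH.obj (RA ι)) ⊗ SH.obj (RA ι)) ⊗ P),
          am (eul SH) Y ≫ am (eul SH) _ ≫ h = (N - D) ≫ σ ∧ q ≫ z = ε.hom ≫ mt h t ≫ γ₂ := by
  obtain ⟨h', hh'⟩ := C.exists_div_one h3 hY.sg h₁ (x := N - D) (by
    rw [R.map_sub, Action.sub_hom, hD, sub_self])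
  have k1 := C.gc_eu s (Eu.one _ Y) hY
  have k2 := (C.gc_eu s (Eu.one _ _) k1).cast rfl (d' := (L + 2 * ((Nat.card ι : ℤ) - 1), g₁))
    (Prod.ext (by push_cast; ring) rfl)
  obtain ⟨o, o1, o2⟩ := tw1 C h3 (e := -1) (by simpa using k1.sg) (by simpa using h₁) h'
  obtain ⟨i⟩ := k2.cell
  refine ⟨i.inv ≫ o, by rw [← Preadditive.comp_nsmul, o1, comp_zero],
    fun {F₂ Z₂ γ₂ σ z} h₂ w U₂ ho => ?_⟩
  obtain ⟨h, hh⟩ := o2 σ (by simpa using h₂) (by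
    rwa [Category.assoc, Preadditive.IsIso.comp_left_eq_zero] at ho)
  have e1 : Eu (eul SH) (n + 1) (d ≫ am (eul SH) Y ▷ P) := hd.comp ((Eu.one _ Y).whiskerRight P)
  obtain ⟨f', hf', rfl⟩ := e1.cancel (l := 1) hf
  have e2 : f' ≫ q = mt h' t ≫ γ₁ := C.eu_inj s e1 hV hl U₁ (by
    beta_reduce
    rw [← Category.assoc, hq, Category.assoc, whiskerRight_mt_assoc, hh', mt_sub,
      Preadditive.sub_comp, h0, sub_zero])
  obtain ⟨ε, hε⟩ := hf'.uniq ((Eu.one (eul SH) (Y ⊗ SH.obj (RA ι))).whiskerRight P)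
  refine ⟨h, ε, by rw [hh, reassoc_of% hh'], ?_⟩
  refine (Eu.inj (i := 0) (P := fun i V => i = 0 → GC R c (-1) (L + ((Nat.card ι : ℤ) - 1), g) V)
    (fun _ _ _ j k l => (k l).of_iso j) (fun _ _ _ l => absurd l (Nat.succ_ne_zero _)) hf'
    (fun _ => (k1.tensor hP).cast (by simp) (by simp [hg]))
    fun j _ hj V k => U₂ V (k (by omega))) ?_
  beta_reduce
  rw [reassoc_of% e2, w, reassoc_of% hε, whiskerRight_mt_assoc, hh, mt_comp_assoc]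

end Vale.Agent.P257.G
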