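import Vale.Agent.P257.W.Glue2
import Vale.Agent.P257.G.Tw

/-!
# P257, block G: the comparison of the quotients after the obstruction has been killed
-/

open CategoryTheory MonoidalCategory Limits Functor.LaxMonoidal Functor.OplaxMonoidal

namespace Vale.Agent.P257.G

open Vale.Agent.P251.H Vale.Agent.P251.H.StabInput
open K M D D.EF C A T L N W
open Vale.Agent.P251.M (IsInv whiskerRight_inj whiskerRight_surj)
open Vale.Agent.P257.E (triv JA)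
open Vale.Agent.P257.F (DH sH RH)
open Vale.Agent.P257.Z (mt UQ)
open Equiv (Perm)

set_option linter.unusedSectionVars false

variable {p : ℕ} {ι : Type} [Finite ι] [DecidableEq ι] [Nontrivial ι] [Fact p.Prime]
  [hι : Fact (Nat.card ι = p)] {C A₁ B₁ : CommMon MM} (Cx : CX ι p) (h3 : 3 ≤ Nat.card ι)
  {a₁ : NZ (SM ι) B₁}
include Cx h3

theorem glue3 {κ : C ⟶ A₁} {σ₀ : A₁ ⟶ cten C T0} (hκ : κ ≫ σ₀ = cinl C T0) {j : A₁ ⟶ B₁}
    {V V' : ∀ {P : EE p}, (P ⟶ (sE p).obj (cten C T0).X) → Prop} {X : MM} {a : Lam} {l : ℤ}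
    (hX : NF X (a, 0) l) (hl : Even l) (hd : DetK p ι (cinl C T0) V V' X) {ξ : X ⟶ A₁.X}
    (hξ : V ((sE p).map (ξ ≫ ah σ₀))) {w r n : ℕ} (hr : w ≤ r)
    (h0 : (sE p).map (tX X w ≫ ξ ≫ ah j) = 0) {U W : SC (DH ι p)} {e : ℤˣ}
    {d : U ⟶ (sH ι p).obj ((powG MM (Perm ι) ι).obj X) ⊗
      (sH ι p).obj ((triv _).obj (rp (0, (r : ℤ))))} (ed : Eu (aH ι (DH ι p)) n d)
    (hU : GH p e (p * l - n * ((p : ℤ) - 1), (p • a, (r : ℤ))) U) {f : U ⟶ W}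
    (ef : Eu (aH ι (DH ι p)) (n + 2) f) {q : W ⟶ (sH ι p).obj a₁.Z.X}
    (hq : f ≫ q = d ≫ mt ((sH ι p).map (nrmG ι ξ)) (tR ι p r) ≫
      (sH ι p).map (ahL (trivMap _ j ≫ a₁.γ)))
    (i₁ : NIso p a₁ (p • a, (r : ℤ))) (t₁ : NTw p a₁ (p • a, (r : ℤ)))
    (v₁ : ∀ l' ≤ p * l + 1, (cE p).Van ((sE p).obj a₁.N.X) (l', (p • a, (r : ℤ))))
    {P : EE p} {l' : ℤ} (c : P ≅ (cE p).obj (l', (p • a, (r : ℤ)))) {y : P ⟶ (sE p).obj a₁.N.X}
    (t : (kT ι p).obj P ≅ (Kl.ks _).obj W)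
    (ht : (kT ι p).map y ≫ kφ p a₁.φ = t.hom ≫ (Kl.ks _).map q) :
    ∃ o : (cE p).obj (p * l + 2 * ((p : ℤ) - 1) - 1, (p • a, 0)) ⟶ (sE p).obj A₁.X, p • o = 0 ∧
      ∀ {A₂ B₂ : CommMon MM} {a₂ : NZ (SM ι) B₂} {α : A₁ ⟶ A₂} {σ₂ : A₂ ⟶ cten C T0}
        {j₂ : A₂ ⟶ B₂} {σ : B₁ ⟶ B₂} (k : NZ.Hom σ a₁ a₂), α ≫ σ₂ = σ₀ → j ≫ σ = α ≫ j₂ →
        NIso p a₂ (p • a, (r : ℤ)) → NTw p a₂ (p • a, (r : ℤ)) → o ≫ (sE p).map (ah α) = 0 →
        ∃ (Y : EE p) (x : Y ⟶ (sE p).obj A₂.X) (ε : P ≅ Y ⊗ (sE p).obj (rp (0, (r : ℤ)))),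
          V' (x ≫ (sE p).map (ah σ₂)) ∧ y ≫ (sE p).map (ah k.n) = (ε.hom ≫
            Y ◁ (sE p).map (t1 r) ≫ (ρ_ Y).hom ≫ x ≫ (sE p).map (ah j₂)) ≫ (sE p).map (ah a₂.β) := by
  obtain ⟨u, hu, hd⟩ := hd
  have hp : (Nat.card ι : ℤ) = p := congrArg _ hι.out
  have hY : GH p 1 (p * l, (p • a, 0)) ((sH ι p).obj ((powG MM (Perm ι) ι).obj X)) :=
    (gh_powG hX.nf0).cast (Int.negOnePow_even _ hl) (by simp)
  rw [aH_eq_eul] at ed ef
  have z₀ : mt (u ≫ (sH ι p).map (pwK ι κ ξ)) (tR ι p r) ≫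
      (sH ι p).map (ahL (trivMap _ j ≫ a₁.γ)) = 0 := by
    rw [ahL_trivMap, Functor.map_comp, ← Category.assoc, mt_pwK κ ξ j hr h0, zero_comp]
  have hg : ((p • a, 0) : Gam) + (0, (r : ℤ)) = (p • a, (r : ℤ)) := by simp
  have hl' : p * l - n * ((p : ℤ) - 1) + n * ((Nat.card ι : ℤ) - 1) ≤ p * l := by
    rw [hp, sub_add_cancel]
  have key := glue1 Cx h3 (SIso p) hY (gh_triv (NF0.rp (0, (r : ℤ)))) hg
    (tR ι p r) (sg_triv A₁.X) (res_nrmG κ ξ hu) z₀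
    ed hU hl' ef hq (fun e' l' k' => uq_of Cx h3 i₁ t₁ (v₁ _ (by omega)) e')
  rw [hp, hι.out] at key
  obtain ⟨o, o1, o2⟩ := key
  have : IsInv (SC.SS (De p)) := IsInv.of_iso (SIso p).symm
  obtain ⟨o', ho'⟩ := whiskerRight_surj (SC.SS (De p)) (Z := (sE p).obj A₁.X)
    ((cPred _ _).inv ≫ o)
  refine ⟨o', whiskerRight_inj (SC.SS (De p)) (((tensorRight _).map_nsmul).trans ?_),
    fun {A₂ B₂ a₂ α σ₂ j₂ σ} k hα hφ i₂ t₂ h₂ => ?_⟩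
  · change p • (o' ▷ SC.SS (De p)) = _
    rw [ho', ← Preadditive.comp_nsmul, MonoidalPreadditive.zero_whiskerRight]
    exact (congrArg _ o1).trans comp_zero
  have w₁ : (sH ι p).map (ahL (trivMap _ j ≫ a₁.γ)) ≫ (sH ι p).map (ah k.z) =
      (sH ι p).map ((triv _).map (ah α)) ≫ (sH ι p).map ((triv _).map (ah j₂)) ≫
        (sH ι p).map (ahL a₂.γ) := by
    rw [← Functor.map_comp, ← Functor.map_comp, ← Functor.map_comp, ← ahL_trivMap, ← ahL_trivMap,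
      ← ahL_comp, Category.assoc, k.hγ, ← Category.assoc, ← trivMap_comp, hφ, trivMap_comp,
      Category.assoc]
  have h5 : ∀ {B B' : CommMon MM} (φ : B ⟶ B'),
      ((RH ι p).map ((sH ι p).map ((triv (Perm ι)).map (ah φ)))).hom = (sE p).map (ah φ) :=
    fun φ => E.rsA_st_hom _ _ _ _
  obtain ⟨h, ε, h1, h2⟩ := o2 (sg_triv A₂.X) w₁ (uq_tw Cx h3 t₂ _) (by
    rw [E.rsA_whiskerRight_hom, h5, ← cancel_epi (cPred _ _).inv, ← Category.assoc, ← ho']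
    exact (comp_whiskerRight _ _ _).symm.trans ((congrArg (· ▷ _) h₂).trans
      (MonoidalPreadditive.zero_whiskerRight.trans comp_zero.symm)))
  obtain ⟨ε', h3⟩ := kl2 Cx h3 k i₂ c t ht
    (x := ε.hom ≫ mt h (tR ι p r) ≫ (sH ι p).map ((triv _).map (ah j₂)))
    (h2.trans (by simp only [Category.assoc]))
  obtain ⟨ε'', h4⟩ := res_mt h r
  refine ⟨_, ((RH ι p).map h).hom, ε' ≪≫ (RH ι p ⋙ Action.forget _ _).mapIso ε ≪≫ ε'', ?_,
    h3.trans ?_⟩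
  · rw [← h5, ← Action.comp_hom, ← Functor.map_comp]
    refine hd (ξ ≫ ah σ₀) _ hξ ?_
    have h6 := congrArg (· ≫ (sH ι p).map ((triv (Perm ι)).map (ah σ₂))) h1
    beta_reduce at h6
    rw [Category.assoc, Category.assoc, Category.assoc, ← Functor.map_comp, ← Functor.map_comp,
      ← ah_comp, hα, Preadditive.sub_comp, Category.assoc, ← Functor.map_comp, ← Functor.map_comp,
      nrmG_ah, pwK_ah, hκ, ← aH_eq_eul] at h6
    refine Eq.trans ?_ h6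
    rw [Functor.map_comp, Category.assoc, st_am, st_am]
    rfl
  · rw [Functor.map_comp, Functor.map_comp, Action.comp_hom, Action.comp_hom, h4]
    simp only [Category.assoc, Iso.trans_hom]
    rw [h5]
    exact congrArg (ε'.hom ≫ ·) (Category.assoc _ _ _).symm

end Vale.Agent.P257.G
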