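import Vale.Agent.P257.G.Step
import Vale.Agent.P257.G.Glue
import Vale.Agent.P257.P.Inst
import Vale.Agent.P257.Det.SCM

/-!
# P257, block G: the induction; `V(n)` exists for `p ≥ 2 ^ (n + 1) + 2`
-/

namespace Vale.Agent.P257.G

open Vale.Agent.P251.St Vale.Agent.P257.W

theorem hasV {U : SHCat} (σ : Susp U) (n p : ℕ) (hp : p.Prime) (h : 2 ^ (n + 1) + 2 ≤ p) :
    P257.St.HasV σ p n := by
  have : Fact p.Prime := ⟨hp⟩
  have : Nontrivial (Fin p) := Fin.nontrivial_iff_two_le.2 hp.two_le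
  have k : Num p n := h
  have h4 := k.four_le
  have h2 : p ≠ 2 := by omega
  have hl : 4 ≤ Nat.card (Fin p) := by rwa [Nat.card_eq_fintype_card, Fintype.card_fin]
  have key : ∀ j ≤ n, ∃ c : Core (Fin p) p n hl j, c.Det (QG σ hp h2) := fun j => by
    induction j with
    | zero => exact fun _ => exists_core_zero _ k
    | succ j ih =>
      exact fun hj => (ih (by omega)).elim fun c hc => Core.step _ k (Z.ctx iG p (Fin p))
        (glue k (isMU_QG h2 σ (detO_EM σ hp h2))) hj c hc
  obtain ⟨c, hc⟩ := key n le_rfl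
  exact hasV_QG σ hp h2 le_rfl k.lt.le c.tc1 hc

end Vale.Agent.P257.G
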