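import Vale.Agent.P257.W.Le0
import Vale.Agent.P257.G.Num

/-!
# P257, block G: profiles with windows which depend on the weight

* `Pr τ π B ω N` : the profile; `Pr.filt`, `crude`, `odd`, `top`, `pair` : the counting lemma;
* `Tr τ` : truncations exist; `Good.shrink` : objects of filtration degree zero need no window.
-/

open CategoryTheory MonoidalCategory Limits Pointwise

namespace Vale.Agent.P257.G

open Vale.Agent.P257.C Vale.Agent.P257.V

universe v u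

variable {C : Type u} [Category.{v} C] [MonoidalCategory C] [SymmetricCategory C] [Preadditive C]
  [MonoidalPreadditive C] {Λ : Type} [AddCommGroup Λ] {c : Cells C (ℤ × (Λ × ℤ))}
  (τ : TCone c) (π : Par Λ)

/-- the profile -/
def Pr (B : C) (ω : Λ → ℤ → Prop) (N : ℤ) : Prop :=
  ∀ (a : Λ) (W : ℤ), π.ℓ a ≤ π.Lm → W ≤ π.P → ω a W → ProfAt τ π B a W N

/-- truncations -/
def Tr : Prop := ∀ Y : C, ∃ (Y' Z : C) (φ : Y' ⟶ Y), IsCone c φ Z ∧
  (∀ (l : ℤ) (a : Λ) (T : ℤ), T ≤ 0 → c.Van Z (l, (a, T))) ∧ ∀ (P : ℤ) (a : Λ), Stab τ P Y' a 0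

variable {τ π} {B B' : C} {L E : ℕ → C} {g : Λ} {ω ω' : Λ → ℤ → Prop} {N N' n d : ℤ} {f : ℕ}

theorem nsmul_win (hm : ∀ a W, ω a W → ω (a - g) W) (k : ℕ) {a : Λ} {W : ℤ} (h : ω a W) :
    ω (a - k • g) W := by
  induction k with
  | zero => simpa using h
  | succ k ih =>
    rw [succ_nsmul, ← sub_sub]
    exact hm _ _ ih

namespace Pr

omit [SymmetricCategory C] [MonoidalPreadditive C] in
theorem mono (h : Pr τ π B ω N) (hW : ∀ a W, ω' a W → ω a W) (hN : N ≤ N') : Pr τ π B ω' N' :=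
  fun a W h1 h2 h3 => (h a W h1 h2 (hW a W h3)).mono le_rfl hN

omit [SymmetricCategory C] [MonoidalPreadditive C] in
theorem of_iso (h : Pr τ π B ω N) (i : B ≅ B') : Pr τ π B' ω N :=
  fun a W h1 h2 h3 => (h a W h1 h2 h3).of_iso i

theorem filt (h : Pr τ π B ω N) (hF : Filt c B B' L E) (hn : 0 ≤ n) (h0 : ∀ a W, ω' a W → ω a W)
    (fin : ∀ a : Λ, π.ℓ a ≤ π.Lm → ∃ m : ℕ, (∀ l T : ℤ, T ≤ π.P → c.Van (E m) (l, (a, T))) ∧
      ∀ k, 1 ≤ k → k ≤ m → ∃ (g : Λ) (r : ℤ) (w : ℕ), 0 ≤ π.ℓ g ∧ Good τ π.P (L k) g r w ∧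
        π.bd g - π.p * n ≤ π.p * r ∧ ∀ W, ω' a W → ω (a - g) (W - w)) :
    Pr τ π B' ω' (N + n) := by
  obtain ⟨F, e, i, j, hi, hj⟩ := hF
  intro a W ha hW hω
  obtain ⟨m, h1, h2⟩ := fin a ha
  have key : ∀ k ≤ m, ProfAt τ π (F k) a W (N + n) := by
    intro k hk
    induction k with
    | zero => exact ((h a W ha hW (h0 a W hω)).mono le_rfl (by omega)).of_iso e
    | succ k ih =>
      obtain ⟨g, r, w, hg, hL, hr, hw⟩ := h2 (k + 1) (by omega) hk
      have := (h (a - g) (W - w) (by rw [map_sub]; omega) (by omega) (hw W hω)).tensor hL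
        (by omega) hr
      rw [sub_add_cancel] at this
      exact (ih (by omega)).cone (hi k) this
  exact (key m le_rfl).cone (hj m) (ProfAt.of_van h1)

/-- Cells of filtration degree zero for which the obvious connectivity suffices. -/
theorem crude (h : Pr τ π B ω N) (hF : Filt c B B' L E) (hg : 0 ≤ π.ℓ g)
    (hm : ∀ a W, ω a W → ω (a - g) W)
    (hE : ∀ a : Λ, π.ℓ a ≤ π.Lm → ∀ l T : ℤ, T ≤ π.P → c.Van (E π.Lm) (l, (a, T)))
    (hL : ∀ k : ℕ, 1 ≤ k → k ≤ π.Lm → c.Conn (L k) (k • g, 0) (k * d))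
    (hd : π.bd g ≤ π.p * d) : Pr τ π B' ω N := by
  have := h.filt (n := 0) hF le_rfl (fun _ _ => id) fun a ha => ⟨π.Lm, hE a ha, fun k k1 k2 =>
    ⟨k • g, k * d, 0, by rw [map_nsmul]; exact nsmul_nonneg hg k,
      Good.of_conn (hL k k1 k2) le_rfl le_rfl, by
        rw [map_nsmul, nsmul_eq_mul]
        have := mul_le_mul_of_nonneg_left hd (Int.natCast_nonneg k)
        linarith, fun W l => by simpa using nsmul_win hm k l⟩⟩
  simpa using this

/-- Odd cells of filtration degree zero. -/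
theorem odd (h : Pr τ π B ω N) (hF : Filt c B B' L E) (hg : 0 ≤ π.ℓ g)
    (hm : ∀ a W, ω a W → ω (a - g) W)
    (hE : ∀ a : Λ, π.ℓ a ≤ π.Lm → ∀ l T : ℤ, T ≤ π.P → c.Van (E π.Lm) (l, (a, T)))
    (hret : ∀ k, π.p < k → k ≤ π.Lm → Dom c (L k) (L π.p ⊗ L (k - π.p)))
    (h1 : c.Conn (L 1) (g, 0) d) (h2 : ∀ r, 2 ≤ r → r < π.p → c.TConn (L r) ∅)
    (h3 : c.Conn (L π.p) (π.p • g, 0) (π.p * d + π.p - 2))
    (hd : π.bd g ≤ π.p * (d + 1) - 3) : Pr τ π B' ω (N + 1) :=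
  h.filt (n := 1) hF zero_le_one (fun _ _ => id) fun a ha =>
    ⟨π.Lm, hE a ha, fun k k1 k2 => by
      obtain ⟨u, r, hr, rfl⟩ : ∃ u r, r < π.p ∧ k = u * π.p + r :=
        ⟨k / π.p, k % π.p, Nat.mod_lt _ π.p_pos, (Nat.div_add_mod' k π.p).symm⟩
      have k3 := good_of_dom (τ := τ) (P := π.P) (w := 0) (g := g) π.p_pos
        (ρ' := fun r => if r ≤ 1 then r * d else r * (d + 1)) hret
        (Good.of_conn h3 le_rfl le_rfl) (fun r r1 r2 => by
          by_cases h : r ≤ 1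
          · obtain rfl : r = 1 := by omega
            simpa using Good.of_conn h1 le_rfl le_rfl
          · exact Good.of_empty (h2 r (by omega) r2)) (by simp) u r hr k1 k2
      refine ⟨_, _, 0, by rw [map_nsmul]; exact nsmul_nonneg hg _, k3.mono le_rfl (by simp), ?_,
        fun W l => by simpa using nsmul_win hm _ l⟩
      rw [map_nsmul, nsmul_eq_mul]
      have k4 := mul_le_mul_of_nonneg_left hd (Int.natCast_nonneg (u * π.p + r))
      have k5 : (0 : ℤ) ≤ u * π.p := by positivity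
      have k6 : (0 : ℤ) ≤ π.p := Int.natCast_nonneg _
      have k7 : (0 : ℤ) ≤ r := Int.natCast_nonneg _
      push_cast at k4 ⊢
      split_ifs with h
      · rcases (by omega : r = 0 ∨ r = 1) with rfl | rfl
        · push_cast at k4 ⊢
          nlinarith
        · push_cast at k4 ⊢
          nlinarith
      · nlinarith⟩

/-- Cells of positive filtration degree whose higher layers vanish. -/
theorem top (h : Pr τ π B ω N) (hF : Filt c B B' L E) (hg : 0 ≤ π.ℓ g)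
    (hE : ∀ a : Λ, π.ℓ a ≤ π.Lm → ∀ l T : ℤ, T ≤ π.P → c.Van (E π.P) (l, (a, T)))
    (h1 : c.Conn (L 1) (g, f) d) (h2 : ∀ r, 2 ≤ r → r ≤ π.P → c.TConn (L r) ∅)
    (hd : π.bd g ≤ π.p * d) : Pr τ π B' (sh ω (one g f)) N := by
  have := h.filt (n := 0) (ω' := sh ω (one g f)) hF le_rfl (fun _ _ l => (sh_one.1 l).1) fun a ha =>
    ⟨π.P, hE a ha, fun k k1 k2 => ⟨g, d, f, hg, by
      by_cases h : k = 1
      · subst h
        exact Good.of_conn h1 (Int.natCast_nonneg f) le_rfl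
      · exact Good.of_empty (h2 k (by omega) k2), by simpa using hd, fun _ l => (sh_one.1 l).2⟩⟩
  simpa using this

/-- Pairs of cells. -/
theorem pair (h : Pr τ π B ω N) (hF : Filt c B B' L E) (hg : 0 ≤ π.ℓ g)
    (hm : ∀ a W, ω a W → ω (a - g) W)
    (hE : ∀ a : Λ, π.ℓ a ≤ π.Lm → ∀ l T : ℤ, T ≤ π.P → c.Van (E π.Lm) (l, (a, T)))
    (hL : ∀ k, 1 ≤ k → k ≤ π.Lm → ∃ r, Good τ π.P (L k) (k • g) r f ∧ k * π.bd g ≤ π.p * r) :
    Pr τ π B' (sh ω (one g f)) N := by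
  have := h.filt (n := 0) (ω' := sh ω (one g f)) hF le_rfl (fun _ _ l => (sh_one.1 l).1) fun a ha =>
    ⟨π.Lm, hE a ha, fun k k1 k2 => by
      obtain ⟨r, k3, k4⟩ := hL k k1 k2
      obtain ⟨k, rfl⟩ : ∃ j, k = j + 1 := ⟨k - 1, by omega⟩
      refine ⟨_, r, f, by rw [map_nsmul]; exact nsmul_nonneg hg _, k3, by simpa using k4,
        fun W l => ?_⟩
      rw [succ_nsmul', ← sub_sub]
      exact nsmul_win hm k (sh_one.1 l).2⟩
  simpa using this

end Pr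

variable {P r T : ℤ} {A Q D K Y Z : C} {a : Λ} {w : ℕ}

omit [SymmetricCategory C] in
theorem stab_up (h : Stab τ P Y a T) (h2 : T ≤ P) {l : ℤ} (hv : c.Van Y (l, (a, T))) :
    c.Van Y (l, (a, P)) := by
  obtain ⟨f, rfl⟩ : ∃ f : ℕ, T = P - f := ⟨(P - T).toNat, by omega⟩
  exact ((h.surj f (by omega) le_rfl).van ((τ.van_R_iff f).2 hv)).of_iso (ρ_ _)

theorem Tr.at (h : Tr τ) (Y : C) (P : ℤ) : ∃ (Y' Z : C) (φ : Y' ⟶ Y), IsCone c φ Z ∧
    (∀ (l : ℤ) (a : Λ) (T : ℤ), T ≤ P → c.Van Z (l, (a, T))) ∧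
      ∀ (P' : ℤ) (a : Λ), Stab τ P' Y' a P := by
  obtain ⟨Y', Z, φ, h1, h2, h3⟩ := h (Y ⊗ c.obj (-(0, (0, P))))
  have e : ∀ (l : ℤ) (a : Λ) (T : ℤ), ((l, (a, T)) : ℤ × (Λ × ℤ)) - (0, (0, P)) = (l, (a, T - P)) :=
    fun l a T => by simp
  let j : (Y ⊗ c.obj (-(0, (0, P)))) ⊗ c.obj (0, (0, P)) ≅ Y :=
    α_ _ _ _ ≪≫ whiskerLeftIso Y (c.inv _) ≪≫ ρ_ Y
  refine ⟨_, _, _, (h1.whiskerRight (c.obj (0, (0, P)))).of_iso (Iso.refl _) j rfl (Iso.refl _),
    fun l a T hT => Cells.Van.tensor (e l a T ▸ h2 l a _ (by omega)), fun P' a l T f k1 k2 => ?_⟩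
  exact (Cells.Van.tensor (e l a T ▸ h3 (P' - P) a l (T - P) f (by omega) (by omega))).of_iso
    (α_ _ _ _ ≪≫ whiskerLeftIso _ (β_ _ _) ≪≫ (α_ _ _ _).symm)

/-- Objects of filtration degree zero need no window. -/
theorem Good.shrink (hT : Tr τ) (hP : 0 ≤ P) (hK : c.TConn K (At g 0))
    (h : Good τ (P + w) K g r w) : Good τ P K g r 0 := by
  refine ⟨hK.mono (at_subset_win le_rfl le_rfl), fun Y a k h0 _ h2 => ?_⟩
  obtain ⟨Y', Z, φ, k1, k2, k3⟩ := hT.at Y P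
  have n : Neg c Y' (a - g) := fun l T hT => k1.van_src' (h0 l T hT) (k2 _ _ _ (by omega))
  have v := h.fine Y' a k n ((k3 _ _).mono (by omega)) fun l hl =>
    stab_up (k3 _ _) (by omega) (k1.van_src' (h2 l hl) (k2 _ _ _ le_rfl))
  have s : Stab τ (P + w) (Y' ⊗ K) a (P + (0 : ℕ)) :=
    Stab.tensor n (k3 _ _) (hK.mono (at_subset_win le_rfl le_rfl))
  refine (k1.whiskerRight K).van_tgt' (s.down (by simp) (by omega) v) (hK Z _ ?_)
  rintro ⟨x, y⟩ rfl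
  exact k2 _ _ _ (by simp)

omit [SymmetricCategory C] [MonoidalPreadditive C] in
theorem Good.src {i : A ⟶ B} (hP : 0 ≤ P) (h : IsCone c i D) (hB : Good τ P B g r w)
    (hD : c.TConn D (High P g)) : Good τ P A g r w :=
  ⟨h.tConn_src hB.tc hD fun _ hq => high_subset_win hP hq, fun Y a k h0 h1 h2 =>
    h.van_src (hB.fine Y a k h0 h1 h2) (hD Y _ (by
      rintro ⟨x, y, z⟩ ⟨rfl, h3⟩
      exact h0 _ (P - z) (by dsimp only at h3; omega)))⟩

variable {m : Q ⟶ D} {b : A ⟶ Q}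

theorem bij_dl (hb : Dl τ f b) (hQ : c.TConn Q (At g 0)) (h0 : Neg c Y (a - g))
    (h1 : Stab τ P Y (a - g) (P - f)) (l : ℤ) : P257.L.Bij (c.obj (l, (a, P))) (Y ◁ b) :=
  (hb.whiskerLeft Y).bij (W := P - f + (0 : ℕ))
    (Stab.tensor h0 h1 (hQ.mono (at_subset_win le_rfl le_rfl))) (by simp) le_rfl l

omit [SymmetricCategory C] [MonoidalPreadditive C] in
theorem tConn_at (hK : IsCone c m K) (hQ : c.TConn Q (At g 0)) (hD : c.TConn D (At g 0)) :
    c.TConn K (At g 0) := hK.tConn_cone hD hQ fun _ hq => hq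

theorem Good.kos (hb : Dl τ f b) (hK : IsCone c m K) (kK : Good τ P K g r 0)
    (hQ : c.TConn Q (At g 0)) (hD : c.TConn D (At g 0)) (hL : IsCone c (b ≫ m) Z) :
    Good τ P Z g r f := by
  refine ⟨hL.tConn_cone (hD.mono (at_subset_win le_rfl (Int.natCast_nonneg f))) (hb.tConn hQ)
    fun q hq => at_subset_win (Int.natCast_nonneg f) le_rfl (by rwa [zero_add] at hq),
    fun Y a k h0 h1 h2 => ?_⟩
  have v := kK.fine Y a k h0 (h1.mono (by omega)) h2
  refine hL.van Y k _ ?_ ?_ <;> rw [MonoidalCategory.whiskerLeft_comp]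
  · exact (Surj.of_bijective (bij_dl hb hQ h0 h1 _)).comp (hK.surj Y k _ v)
  · exact (Inj.of_bijective (bij_dl hb hQ h0 h1 _)).comp (hK.inj Y _ _ (by rwa [sub_add_cancel]))

theorem Good.kos_inv (hb : Dl τ f b) (hK : IsCone c m K) (hQ : c.TConn Q (At g 0))
    (hD : c.TConn D (At g 0)) (hL : IsCone c (b ≫ m) Z) (h : Good τ P Z g r w) (hw : f ≤ w) :
    Good τ P K g r w := by
  refine ⟨(tConn_at hK hQ hD).mono (at_subset_win le_rfl (Int.natCast_nonneg w)),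
    fun Y a k h0 h1 h2 => ?_⟩
  have v := h.fine Y a k h0 h1 h2
  refine hK.van Y k _ (fun y => ?_) fun y hy => ?_
  · obtain ⟨x, rfl⟩ := hL.surj Y k _ v y
    exact ⟨x ≫ Y ◁ b, by rw [MonoidalCategory.whiskerLeft_comp, Category.assoc]⟩
  · obtain ⟨x, rfl⟩ := (bij_dl hb hQ h0 (h1.mono (by omega)) _).2 y
    beta_reduce at hy ⊢
    rw [hL.inj Y (k - 1) _ (by rwa [sub_add_cancel]) x (by
      rw [MonoidalCategory.whiskerLeft_comp, ← Category.assoc, hy]), zero_comp]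

end Vale.Agent.P257.G
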