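import Vale.Agent.P257.M.State
import Vale.Agent.P257.G.Lift
import Vale.Agent.P257.G.Gd

/-!
# P257, block G: the state of the induction

* `Num p n` : the numerical condition;
* `Core`, `Core.Det` : the data which are constructed by induction;
* `Glue` : the class constructed in the inductive step comes from a detected class.
-/

open CategoryTheory MonoidalCategory Limits Pointwise

namespace Vale.Agent.P257.G

open Vale.Agent.P251.H Vale.Agent.P251.H.StabInput
open Vale.Agent.P257.A Vale.Agent.P257.T Vale.Agent.P257.W Vale.Agent.P257.K Vale.Agent.P257.M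
open Vale.Agent.P257.N (NZ SM kT kP kφ NTw)
open Vale.Agent.P257.F (DH sH RH RM FW)
open Vale.Agent.P257.V (par Par)
open Equiv (Perm)

universe w

/-- the numerical condition -/
def Num (p n : ℕ) : Prop := 2 ^ (n + 1) + 2 ≤ p

namespace Num

variable {p n : ℕ} (h : Num p n)
include h

theorem top : 2 ^ (n + 1) + 2 ≤ p := h

theorem lt : 2 ^ (n + 1) < p := by
  have := h.top
  omega

theorem four_le : 4 ≤ p := by
  have := h.top
  have := Nat.one_le_two_pow (n := n)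
  omega

theorem lm_lt' : p * 2 ^ n < (p - 1) * p := by
  have := h.top
  have := Nat.one_le_two_pow (n := n)
  rw [mul_comm]
  exact Nat.mul_lt_mul_of_pos_right (by omega) (by omega)

theorem lm_lt : p * 2 ^ n < p ^ 2 := by
  rw [sq]
  exact h.lm_lt'.trans_le (Nat.mul_le_mul_right p (Nat.sub_le _ _))

end Num

theorem four_mul_le {j n : ℕ} (h : j < n) : 4 * 2 ^ j ≤ 2 ^ (n + 1) := by
  have := Nat.pow_le_pow_right two_pos (show j + 2 ≤ n + 1 by omega)
  rw [pow_add] at this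
  omega

/-- the parameters of the profile -/
noncomputable abbrev pa (p n : ℕ) [hp : Fact p.Prime] : Par Lam :=
  par p (2 ^ (n + 1)) (p * 2 ^ n) hp.out.pos

/-- the profile of an algebra, universally in a left factor -/
def UP0 (p n : ℕ) [Fact p.Prime] (B : CommMon MM) (D : Set (Lam × ℤ)) (N : ℕ) : Prop :=
  UP (sE p) (tE p) (pa p n) (default : CommMon.trivial MM ⟶ B) D N

variable (ι : Type) [Finite ι] [Nonempty ι] (p : ℕ) [hp : Fact p.Prime] (n : ℕ)
  (hl : 4 ≤ Nat.card ι)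

/-- the data after the cells `0, …, j` have been attached -/
structure Core (j : ℕ) where
  /-- the universal coefficients -/
  A : CommMon MM
  /-- the specialisation -/
  sp0 : A ⟶ T0
  /-- the actual algebra with `j` cells -/
  T : CommMon MM
  /-- the actual algebra with `j + 1` cells -/
  T1 : CommMon MM
  /-- the actual chain -/
  tc : TC (okT p 2) T0 j T
  /-- the last cell -/
  s : TStep T T1
  hs : okT p 2 j s.X
  /-- the universal algebra with `j` cells -/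
  R : CommMon MM
  /-- the universal algebra with `j + 1` cells -/
  B : CommMon MM
  /-- the specialisation -/
  sp : R ⟶ T
  /-- the specialisation -/
  sp1 : B ⟶ T1
  /-- the universal chain -/
  c : RC A sp0 tc R sp
  /-- the last universal cell -/
  r : RStep s sp sp1
  good : M.Good A
  /-- the level -/
  nz : NZ (SM ι) B
  un : UN p (2 ^ (n + 1) : ℕ) nz (DS p j)
  /-- the specialisation -/
  fold : nz.N ⟶ T1
  hfold : nz.β ≫ fold = sp1
  /-- the Frobenius -/
  Fr : R ⟶ FrC ι 4 nz.Z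
  hFr : FrobOn hl good.le0 c.i0 (trivMap (Perm ι) (c.i0 ≫ r.i) ≫ nz.γ) Fr
  upB : UP0 p n B (DB j) (2 ^ (j + 1))
  upN : UP0 p n nz.N (DB j + DS p j) (2 ^ (j + 1))

variable {ι p n hl} {j : ℕ}

/-- the actual chain with `j + 1` cells -/
abbrev Core.tc1 (σ : Core ι p n hl j) : TC (okT p 2) T0 (j + 1) σ.T1 := σ.tc.cons σ.s σ.hs

/-- the universal chain with `j + 1` cells -/
abbrev Core.c1 (σ : Core ι p n hl j) : RC σ.A σ.sp0 σ.tc1 σ.B σ.sp1 := σ.c.cons σ.s σ.hs σ.r

/-- the Frobenius of the last attaching map -/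
noncomputable abbrev Core.Fv (σ : Core ι p n hl j) :
    (FrL (Perm ι) ι 4).obj σ.s.X ⟶ σ.nz.Z.X := frV σ.Fr σ.r.v

variable {MU : EE p} [MonObj MU] {A₀ : Type w} [CommRing A₀] {G₀ : L.RegSeq p A₀}
  (Co : L.Coef (SC.sph (De p)) MU G₀)

/-- all cells are detected -/
def Core.Det (σ : Core ι p n hl j) : Prop := σ.tc1.All (DetS Co ee fun i => 2 ^ i)

/-- `v` is a multiple of a detected class -/
def Dn {T : CommMon MM} (φ : T0 ⟶ T) (a : Lam) (m : ℕ) {Y : EE p} (v : Y ⟶ (sE p).obj T.X) : Prop :=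
  ∃ v₀ : (cE p).obj (dd p m - 1, (a, ((2 ^ m : ℕ) : ℤ))) ⟶ (sE p).obj T.X,
    DetV Co m φ a (2 ^ m) v₀ ∧ ∀ {Z : EE p} (ψ : (sE p).obj T.X ⟶ Z), v₀ ≫ ψ = 0 → v ≫ ψ = 0

variable (ι n hl) in
/-- The class constructed in the inductive step comes from a detected class. -/
def Glue : Prop :=
  ∀ (j : ℕ) (_ : j < n) (σ : Core ι p n hl j) (_ : σ.Det Co) (c : D.O) (m : ℕ)
    (_ : Nonempty c.El) (_ : (m : ℤ) = Fintype.card c.El + (dd p j - 1))
    (_ : σ.s.X ≅ D.EF.rep (⟨c, (ee j, ((2 ^ j : ℕ) : ℤ))⟩ : JG) ⊗ tpow (S MM) m)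
    (V : SC (DH ι p)) (f : (sH ι p).obj ((FrL (Perm ι) ι 4).obj σ.s.X) ⟶ V)
    (_ : Eu (N.aH ι (DH ι p)) (m + 2) f) (g : V ⟶ (sH ι p).obj σ.nz.Z.X)
    (_ : f ≫ g = (sH ι p).map σ.Fv) (Y : EE p)
    (_ : Y ≅ (cE p).obj (dd p (j + 1) - 1, (p • ee j, ((4 * 2 ^ j : ℕ) : ℤ))))
    (t : (kT ι p).obj Y ≅ (Kl.ks _).obj V) (y : Y ⟶ (sE p).obj σ.nz.N.X)
    (_ : (kT ι p).map y ≫ kφ p σ.nz.φ = t.hom ≫ (Kl.ks _).map g),
    Dn Co σ.tc1.i0 (p • ee j) (j + 1) (y ≫ (sE p).map (ah σ.fold))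

theorem UP0.gp {B : CommMon MM} {D : Set (Lam × ℤ)} {N : ℕ} (h : UP0 p n B D N) :
    GP (sE p) (tE p) (pa p n) B.X (sh w0 D) N := by
  have := h.self mn_w0 (gp_zero (prof_unit _ _ _) V.posT_unit (W.supp_rp 0))
  rwa [zero_add] at this

omit [Nonempty ι] hp in
/-- the twisted vanishing from the profile -/
theorem Gd.tw' {P Lm : ℕ} {hp : 0 < p} {D D' : Set (Lam × ℤ)} {B : CommMon MM} {a : NZ (SM ι) B}
    (h : Gd p P D B a) {N s T : ℤ} (k : GP (sE p) (tE p) (par p P Lm hp) B.X (sh w0 D') N)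
    (hD : D ⊆ Bx s) {b : Lam} (hb : ell b ≤ Lm) (hT : T ≤ P) (l : sh w0 (D' + D) b T) :
    NTw p a (b, T) :=
  h.tw b T hT fun x hx => (k.prof _ _ (by
    have := (hD hx).1.1
    change ell (b - x.1) ≤ (Lm : ℤ)
    rw [map_sub]
    omega) (by
    have := (hD hx).2.1
    change T - x.2 ≤ (P : ℤ)
    omega) (sh_add.1 l x hx)).stab

end Vale.Agent.P257.G
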